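import Vale.Agent.P167.H476.Q.Law2

/-!
# P167, general `q`, continuity: two strands and the boundary (law part)

The strand `ea` of `B` is explored until its first visit of the fixed set `T`. A fresh crossing
around the tip is unlikely, relatively to the event that the tip exists.
-/

set_option autoImplicit false
set_option linter.unusedVariables false
set_option linter.unusedSectionVars false

namespace Vale.Agent.P167.H476.Q

open Finset Vale.Agent.P167 Vale.Agent.P167.FK Vale.Agent.P167.FKA Relation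
open Vale.Agent.P145.FB (PStep PConn)
open Vale.Agent.P167.H871 (Pt)
open Vale.Agent.P167.H318 (st Adj hit)
open Vale.Agent.P167.H558 (StopSet Past)
open Vale.Agent.P167.H259 (f_markov f_fkg f_comp f_comp2)
open Vale.Agent.P167.QN (Ann mem_Ann FreshP FreshD fresh_both)

variable {B : Finset Pt} {B' T : Set Pt} {ea : Ed} {ω ω' : Cfg} {D : Finset Pt} {η : Cfg}

/-- The tip of the strand `ea`. -/
noncomputable def tq (B : Finset Pt) (T : Set Pt) (ea : Ed) (ω : Cfg) : Pt :=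
  hdv (st ea ω (hit B ea T ω))

/-- The strand `ea` comes to `T`. -/
def Sb (B : Finset Pt) (T : Set Pt) (ea : Ed) (ω : Cfg) : Prop :=
  tlv ea ∉ B ∧ tq B T ea ω ∈ T

/-- A fresh crossing around the tip. -/
def Mb (B : Finset Pt) (T : Set Pt) (r R : ℤ) (D : Finset Pt) (ea : Ed) (ω : Cfg) : Prop :=
  Sb B T ea ω ∧ (FreshP (tq B T ea ω) r R (D \ Tr B ea T ω) ω ∨
    FreshD (tq B T ea ω) r R (D \ Tr B ea T ω) ω)

theorem tq_congr (h0 : tlv ea ∉ B) (hh : ∀ v ∈ Tr B ea T ω, ω' v = ω v) :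
    Tr B ea T ω' = Tr B ea T ω ∧ tq B T ea ω' = tq B T ea ω := by
  refine ⟨Tr_congr h0 hh, ?_⟩
  unfold tq
  rw [hit_congr h0 hh, st_congr hh _ le_rfl]

/-- **The law part**, for one strand. -/
theorem mb_le {Q α C : ℝ} (hQ : 1 ≤ Q) (hA : ArmDec Q α C) {r R : ℤ} (hr : 1 ≤ r) (hrR : r ≤ R)
    (hη : Good η) : Pr Q D η {ω | Mb B T r R D ea ω} ≤
      2 * Q ^ 2 * C * ((r : ℝ) / R) ^ α * Pr Q D η {ω | Sb B T ea ω} := by
  classical
  have hQ0 : 0 < Q := by linarith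
  by_cases h1 : tlv ea ∉ B
  swap
  · unfold Pr
    rw [← Ex_mul_left]
    refine Ex_mono hQ0 fun S' _ => ?_
    rw [Set.indicator_of_notMem (show cf D η S' ∉ {ω | Mb B T r R D ea ω} from
      fun hm => h1 hm.1.1), Set.indicator_of_notMem (show cf D η S' ∉ {ω | Sb B T ea ω} from
      fun hm => h1 hm.1), mul_zero]
  set K : Cfg → Finset Pt := fun ω => Tr B ea T (hat D η ω) ∩ D with hK
  have hhat : ∀ ω ω' : Cfg, (∀ v ∈ K ω, ω' v = ω v) →
      ∀ v ∈ Tr B ea T (hat D η ω), hat D η ω' v = hat D η ω v := by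
    intro ω ω' hh v hv
    unfold hat
    split_ifs with h3
    · exact hh v (Finset.mem_inter.2 ⟨hv, h3⟩)
    · rfl
  have hst : StopSet K := by
    intro ω ω' hh
    simp only [hK]
    rw [(tq_congr h1 (hhat ω ω' hh)).1]
  set G : Cfg → ℝ := fun ω => {ω | Sb B T ea ω}.indicator 1 (hat D η ω) with hG
  have hGp : Past K G := by
    intro ω ω' hh
    obtain ⟨-, k2⟩ := tq_congr h1 (hhat ω ω' hh)
    have : Sb B T ea (hat D η ω') ↔ Sb B T ea (hat D η ω) := by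
      unfold Sb
      rw [k2]
    show ({ω | Sb B T ea ω}.indicator 1 (hat D η ω') : ℝ) =
      {ω | Sb B T ea ω}.indicator 1 (hat D η ω)
    simp only [Set.indicator_apply, Set.mem_ofPred_eq, this, Pi.one_apply]
  set F : Cfg → ℝ := fun ω => {ω | Mb B T r R D ea ω}.indicator 1 ω with hF
  have hG0 : ∀ ω, 0 ≤ G ω := fun ω => ind_nonneg _ _
  have e1 : Pr Q D η {ω | Mb B T r R D ea ω} = Ex Q D η (fun ω => G ω * F ω) := by
    unfold Pr
    refine Ex_congr fun S' _ => ?_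
    simp only [hG, hF, hat_cf]
    by_cases h3 : Sb B T ea (cf D η S')
    · rw [Set.indicator_of_mem (show cf D η S' ∈ {ω | Sb B T ea ω} from h3), Pi.one_apply,
        one_mul]
    · rw [Set.indicator_of_notMem (show cf D η S' ∉ {ω | Sb B T ea ω} from h3), zero_mul,
        Set.indicator_of_notMem (show cf D η S' ∉ {ω | Mb B T r R D ea ω} from
          fun hm => h3 hm.1)]
  have e2 : Pr Q D η {ω | Sb B T ea ω} = Ex Q D η G := by
    unfold Pr
    refine Ex_congr fun S' _ => ?_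
    simp only [hG, hat_cf]
  rw [e1, e2, H192.Q.stop_markov hQ0 hη hst hGp fun ω => Finset.inter_subset_right, ← Ex_mul_left]
  refine Ex_mono hQ0 fun S' _ => ?_
  set ω₀ := cf D η S' with hω₀
  rw [mul_comm _ (G ω₀)]
  refine mul_le_mul_of_nonneg_left ?_ (hG0 _)
  have hg₀ : Good ω₀ := f_good.1 _ _ _ hη
  refine le_trans ?_ (fresh_both hQ hA (x := tq B T ea ω₀) hr hrR (D \ K ω₀) hg₀)
  unfold Pr
  refine Ex_mono hQ0 fun T' hT' => ?_
  set ω := cf (D \ K ω₀) ω₀ T' with hω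
  have h6 : ∀ v ∈ K ω₀, ω v = ω₀ v := fun v hv => cf_out fun h3 => (Finset.mem_sdiff.1 h3).2 hv
  have h7 : ∀ v, v ∉ D → ω v = η v := by
    intro v hv
    rw [hω, cf_out fun h3 => hv (Finset.mem_sdiff.1 h3).1, hω₀, cf_out hv]
  have h8 : hat D η ω = ω := by
    funext v
    unfold hat
    split_ifs with h3
    · rfl
    · exact (h7 v h3).symm
  have h9 : hat D η ω₀ = ω₀ := hat_cf _
  obtain ⟨k1, k2⟩ := tq_congr h1 (hhat ω₀ ω h6)
  rw [h8, h9] at k1 k2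
  have hKD : D \ K ω₀ = D \ Tr B ea T ω₀ := by
    simp only [hK]
    rw [h9]
    ext v
    rw [Finset.mem_sdiff, Finset.mem_sdiff, Finset.mem_inter]
    tauto
  show ({ω | Mb B T r R D ea ω}.indicator 1 ω : ℝ) ≤ _
  by_cases h3 : Mb B T r R D ea ω
  · have h4 := h3.2
    rw [k1, k2, ← hKD] at h4
    rw [Set.indicator_of_mem (show ω ∈ {ω | Mb B T r R D ea ω} from h3),
      Set.indicator_of_mem (show ω ∈ {ω | FreshP (tq B T ea ω₀) r R (D \ K ω₀) ω ∨
        FreshD (tq B T ea ω₀) r R (D \ K ω₀) ω} from h4)]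
  · rw [Set.indicator_of_notMem (show ω ∉ {ω | Mb B T r R D ea ω} from h3)]
    exact ind_nonneg _ _

theorem Sb.vis (hT : T ⊆ B') (hB : B' ⊆ ↑B) (hS : Sb B T ea ω) : ea ∈ E0 B ∧ Vis B B' ea ω := by
  obtain ⟨h2, h3⟩ := hS
  have h4 : tq B T ea ω ∈ B' := hT h3
  have hin : ∀ j ≤ hit B ea T ω, hdv (st ea ω j) ∈ B := by
    intro j hj
    rcases lt_or_eq_of_le hj with h5 | h5
    · exact (lt_hit h5).2
    · rw [h5]; exact hB h4
  exact ⟨mem_E0.2 ⟨hin 0 (by omega), h2⟩, _, hin, h4⟩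

/-- **Law part, sum over the strands.** -/
theorem mb_law {Q α C : ℝ} (hQ : 1 ≤ Q) (hA : ArmDec Q α C) {r R : ℤ} (hr : 1 ≤ r)
    (hrR : r ≤ R) (hT : T ⊆ B') (hB : B' ⊆ ↑B) {D₀ : Finset Pt} {η : Cfg} (hη : Good η)
    {G : Cfg → ℝ} (hG0 : ∀ ω, 0 ≤ G ω) (hG : Ind (D₀ ∩ B) G) :
    Ex Q D₀ η (fun ω => G ω * {ω | ∃ ea, Mb B T r R (D₀ ∩ B) ea ω}.indicator 1 ω) ≤
      2 * Q ^ 2 * C * ((r : ℝ) / R) ^ α * Ex Q D₀ η (fun ω => G ω * (En B B' ω : ℝ)) := by
  classical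
  have hQ0 : 0 < Q := by linarith
  have hC0 : 0 ≤ 2 * Q ^ 2 * C * ((r : ℝ) / R) ^ α := by
    have h1 := fresh_both hQ hA (x := (0, 0)) hr hrR ∅ hη
    refine le_trans ?_ h1
    unfold Pr
    have h2 : Ex Q ∅ η (fun _ => (0 : ℝ)) = 0 := Ex_const hQ0 0
    rw [← h2]
    exact Ex_mono hQ0 fun S' _ => ind_nonneg _ _
  set a := 2 * Q ^ 2 * C * ((r : ℝ) / R) ^ α with ha
  set M : Ed → Cfg → ℝ := fun ea ω => {ω | Mb B T r R (D₀ ∩ B) ea ω}.indicator 1 ω with hM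
  set N : Ed → Cfg → ℝ := fun ea ω => {ω | Sb B T ea ω}.indicator 1 ω with hN
  have hpair : ∀ ea, Ex Q D₀ η (fun ω => G ω * M ea ω) ≤
      a * Ex Q D₀ η (fun ω => G ω * N ea ω) := by
    intro ea
    rw [markov f_markov hQ0 (A := D₀ ∩ B) Finset.inter_subset_left hη hG,
      markov f_markov hQ0 (A := D₀ ∩ B) Finset.inter_subset_left hη hG (F := N ea),
      ← Ex_mul_left]
    refine Ex_mono hQ0 fun S' _ => ?_
    have h1 := mb_le (B := B) (T := T) (ea := ea) (D := D₀ ∩ B) hQ hA hr hrR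
      (f_good.1 D₀ η S' hη)
    calc G (cf D₀ η S') * Ex Q (D₀ ∩ B) (cf D₀ η S') (M ea)
        ≤ G (cf D₀ η S') * (a * Ex Q (D₀ ∩ B) (cf D₀ η S') (N ea)) :=
          mul_le_mul_of_nonneg_left h1 (hG0 _)
      _ = _ := by ring
  have h1 : ∀ ω, G ω * {ω | ∃ ea, Mb B T r R (D₀ ∩ B) ea ω}.indicator 1 ω ≤
      ∑ ea ∈ E0 B, G ω * M ea ω := by
    intro ω
    rw [← Finset.mul_sum]
    refine mul_le_mul_of_nonneg_left ?_ (hG0 ω)
    by_cases hm : ∃ ea, Mb B T r R (D₀ ∩ B) ea ω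
    · rw [Set.indicator_of_mem (show ω ∈ {ω | ∃ ea, Mb B T r R (D₀ ∩ B) ea ω} from hm)]
      obtain ⟨ea, hm⟩ := hm
      obtain ⟨v1, -⟩ := hm.1.vis hT hB
      have k1 : M ea ω = 1 := by
        simp only [hM]
        rw [Set.indicator_of_mem (show ω ∈ {ω | Mb B T r R (D₀ ∩ B) ea ω} from hm)]
        rfl
      rw [Pi.one_apply, ← k1]
      exact Finset.single_le_sum (f := fun ea => M ea ω) (fun j _ => ind_nonneg _ _) v1
    · rw [Set.indicator_of_notMem (show ω ∉ {ω | ∃ ea, Mb B T r R (D₀ ∩ B) ea ω} from hm)]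
      exact Finset.sum_nonneg fun i _ => ind_nonneg _ _
  have h2 : ∀ ω, ∑ ea ∈ E0 B, G ω * N ea ω ≤ G ω * (En B B' ω : ℝ) := by
    intro ω
    rw [← Finset.mul_sum]
    refine mul_le_mul_of_nonneg_left ?_ (hG0 ω)
    have hcard : (En B B' ω : ℝ) = ∑ e ∈ E0 B, if Vis B B' e ω then (1 : ℝ) else 0 := by
      unfold En
      rw [Finset.card_filter]
      push_cast
      rfl
    rw [hcard]
    refine Finset.sum_le_sum fun i _ => ?_
    simp only [hN]
    by_cases hS : Sb B T i ω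
    · rw [Set.indicator_of_mem (show ω ∈ {ω | Sb B T i ω} from hS), if_pos (hS.vis hT hB).2]
      exact le_rfl
    · rw [Set.indicator_of_notMem (show ω ∉ {ω | Sb B T i ω} from hS)]
      split_ifs <;> norm_num
  calc Ex Q D₀ η (fun ω => G ω * {ω | ∃ ea, Mb B T r R (D₀ ∩ B) ea ω}.indicator 1 ω)
      ≤ Ex Q D₀ η (fun ω => ∑ ea ∈ E0 B, G ω * M ea ω) := Ex_mono hQ0 fun S' _ => h1 _
    _ = ∑ ea ∈ E0 B, Ex Q D₀ η (fun ω => G ω * M ea ω) := Ex_sum _ _
    _ ≤ ∑ ea ∈ E0 B, a * Ex Q D₀ η (fun ω => G ω * N ea ω) := Finset.sum_le_sum fun i _ => hpair i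
    _ = a * Ex Q D₀ η (fun ω => ∑ ea ∈ E0 B, G ω * N ea ω) := by
        rw [Ex_sum, Finset.mul_sum]
    _ ≤ a * Ex Q D₀ η (fun ω => G ω * (En B B' ω : ℝ)) :=
        mul_le_mul_of_nonneg_left (Ex_mono hQ0 fun S' _ => h2 _) hC0

end Vale.Agent.P167.H476.Q
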