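import Vale.Agent.P167.H476.Q.Bd
import Vale.Agent.P167.H476.Q.BdLaw
import Vale.Agent.P167.H174.CT.Three
import Vale.Agent.P167.H174.CT.FrzG

/-!
# P167, general `q`, continuity: two strands and the boundary

`T2 D c z r R h`: a strand of `Bq z R` comes within `h` steps of a square off `D` in `Bq z r` and
another strand separates it from this square, which is on the other side. `two_law`: the rate.
-/

set_option autoImplicit false
set_option linter.unusedVariables false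
set_option linter.unusedSectionVars false

namespace Vale.Agent.P167.H476.Q

open Finset Vale.Agent.P167 Vale.Agent.P167.FK Vale.Agent.P167.FKA Relation
open Vale.Agent.P145.FB (PStep PConn)
open Vale.Agent.P167.H871 (Pt)
open Vale.Agent.P167.H632 (Ex)
open Vale.Agent.P167.H318 (cnt st Adj hit)
open Vale.Agent.P167.QN (Ann mem_Ann FreshP FreshD fresh_both)
open Vale.Agent.P167.H166 (bxx mem_bxx mem_Bq)
open Vale.Agent.P167.H161 (Conn BStep)
open Vale.Agent.P167.H174.CT (Frz1 ex_box en_le)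

/-- **Two strands and the boundary**: the strand `em` separates the strand `el`, which is on its
side of colour `c`, from a square `w ∈ F`, and `el` comes within `h` steps in `B'` of `w`. -/
def M2 (B : Finset Pt) (B' F : Set Pt) (c : Bool) (h : ℕ) (em el : Ed) (ω : Cfg) : Prop :=
  em ∈ E0 B ∧ el ∈ E0 B ∧ el ≠ em ∧
    ∃ U, Pot (↑B) (cnt em ω (xt B em ω)) U ∧ U (bk c el) = U (bk c em) ∧
    ∃ i < xt B el ω, ∃ w ∈ F, Near B' h (hdv (st el ω i)) w ∧
      ∃ s, Cor w s ∧ (s.1 + s.2) % 2 = pr (!c) ∧ U s ≠ U (bk c em)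

/-- A chain to a square with another value meets the strand. -/
theorem vis_of {B : Set Pt} {ω : Cfg} {em : Ed} {nm : ℕ} {U : Pt → ℤ} {Qs : Set Pt}
    (hm : Str B ω em nm) (hp : Pot B (cnt em ω nm) U) (hQB : Qs ⊆ B) {x w s t : Pt} (hx : x ∈ Qs)
    (hch : ReflTransGen (fun a b => Adj a b ∧ b ∈ Qs) x w) (hs : Cor x s) (ht : Cor w t)
    (hne : U s ≠ U t) :
    ∃ j < nm, ReflTransGen (fun a b => Adj a b ∧ b ∈ Qs) x (hdv (st em ω j)) := by
  by_contra hcon
  push Not at hcon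
  have hz : ∀ b ∈ B, (∀ j < nm, hdv (st em ω j) ≠ b) → ∀ e, (hdv e = b ∨ tlv e = b) →
      cnt em ω nm e = 0 := by
    intro b hbB hb e he
    refine cnt_zero_of fun i hi h1 => ?_
    rcases he with he | he
    · rcases Nat.lt_or_ge i nm with h2 | h2
      · exact hb i h2 (by rw [h1, he])
      · have : i = nm := by omega
        subst this
        exact hm.exit (by rw [h1, he]; exact hbB)
    · rcases Nat.eq_zero_or_pos i with h2 | h2
      · subst h2
        rw [st_zero] at h1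
        exact hm.start (by rw [h1, he]; exact hbB)
      · obtain ⟨j, rfl⟩ : ∃ j, i = j + 1 := ⟨i - 1, by omega⟩
        refine hb j (by omega) ?_
        rw [← tlv_st, h1, he]
  have key : ∀ b, ReflTransGen (fun a b => Adj a b ∧ b ∈ Qs) x b →
      b ∈ Qs ∧ ∀ s', Cor b s' → U s' = U s := by
    intro b hb
    induction hb with
    | refl =>
      refine ⟨hx, fun s' hs' => hp.sq (hQB hx) (hz x (hQB hx) (fun j hj h1 => hcon j hj ?_)) hs' hs⟩
      rw [h1]
    | @tail b d hxb hbd ih =>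
      obtain ⟨hbQ, hb⟩ := ih
      have hxd := hxb.tail hbd
      refine ⟨hbd.2, fun s' hs' => ?_⟩
      obtain ⟨t', ht1, ht2⟩ : ∃ t, Cor b t ∧ Cor d t := by
        have := hbd.1
        simp only [Adj] at this
        rcases this with ⟨h1, h2 | h2⟩ | ⟨h1, h2 | h2⟩
        · exact ⟨d, ⟨Or.inl h1.symm, Or.inr h2⟩, ⟨Or.inl rfl, Or.inl rfl⟩⟩
        · exact ⟨b, ⟨Or.inl rfl, Or.inl rfl⟩, ⟨Or.inl h1, Or.inr (by omega)⟩⟩
        · exact ⟨d, ⟨Or.inr h2, Or.inl h1.symm⟩, ⟨Or.inl rfl, Or.inl rfl⟩⟩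
        · exact ⟨b, ⟨Or.inl rfl, Or.inl rfl⟩, ⟨Or.inr (by omega), Or.inl h1⟩⟩
      rw [hp.sq (hQB hbd.2) (hz d (hQB hbd.2) fun j hj h1 => hcon j hj (by rw [h1]; exact hxd)) hs'
        ht2]
      exact hb t' ht1
  exact hne ((key w hch).2 t ht).symm

/-- Two strands and the boundary give a fresh crossing around the first point of `el` near `F`, if
all squares of `F` are on the same side. -/
theorem M2.mb {B : Finset Pt} (hEx : Ex (↑B : Set Pt)) {B' F : Set Pt} {h : ℕ} {R : ℤ}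
    (hR : (h : ℤ) + 1 < R) (hB' : ∀ v ∈ B', ∀ w ∈ Bq v R, w ∈ B) {D₀ : Finset Pt} {c : Bool}
    {em el : Ed} {ω : Cfg} (hc : ∀ v ∈ B, v ∉ D₀ → ω v ≠ c) (hm : em ∈ E0 B) (hl : el ∈ E0 B)
    (hlm : el ≠ em) {U : Pt → ℤ} (hU : Pot (↑B) (cnt em ω (xt B em ω)) U)
    (hUl : U (bk c el) = U (bk c em)) {i : ℕ} (hi : i < xt B el ω) {w : Pt} (hw : w ∈ F)
    (hn : Near B' h (hdv (st el ω i)) w)
    (hF : ∀ w ∈ F, w ∈ B' → ∃ s, Cor w s ∧ U s ≠ U (bk c em)) :
    Mb B (Nbr B' F h) (h + 1) R (D₀ ∩ B) el ω := by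
  have same : U (ls el) = U (rs el) := by
    have h1 := hU el (Or.inl (Finset.mem_coe.2 (mem_E0.1 hl).1))
    rw [cnt_zero_of fun k _ h2 => ?_, add_zero] at h1
    · exact h1
    · rcases Nat.eq_zero_or_pos k with h3 | h3
      · subst h3
        exact hlm h2.symm
      · obtain ⟨k', rfl⟩ : ∃ k', k = k' + 1 := ⟨k - 1, by omega⟩
        apply (mem_E0.1 hl).2
        rw [← h2, tlv_st]
        have hk : k' < xt B em ω := by omega
        exact (lt_hit hk).2
  have h0 := (mem_E0.1 hl).2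
  have h1 : hdv (st el ω i) ∈ Nbr B' F h := hn.nbr hw
  have h2 : hit B el (Nbr B' F h) ω ≤ i :=
    Nat.sInf_le (show hdv (st el ω i) ∈ Nbr B' F h ∨ _ from Or.inl h1)
  set ka := hit B el (Nbr B' F h) ω with hka
  have htip : hdv (st el ω ka) ∈ Nbr B' F h := by
    rcases hit_spec (S := Nbr B' F h) (ω := ω) h0 with h3 | h3
    · exact h3
    · exact absurd (lt_hit (S := ∅) (lt_of_le_of_lt h2 hi)).2 h3
  obtain ⟨w', hw', hch⟩ := Nbr_chain htip
  set x := hdv (st el ω ka) with hx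
  set Qs : Set Pt := {b | b ∈ Nbr B' F h ∧ nm (b - x) ≤ h} with hQs
  have hBB : ∀ v ∈ B', v ∈ B := fun v hv => hB' v hv v (by
    rw [H167.Q.mem_Bq]; omega)
  have hxB' : x ∈ B' := Nbr_sub htip
  have hxQ : x ∈ Qs := by
    refine ⟨htip, ?_⟩
    rw [sub_self]
    simp [nm]
  have hw'Q : w' ∈ Qs := by
    rcases ReflTransGen.cases_tail hch with h3 | ⟨b, -, h3⟩
    · rw [h3]; exact hxQ
    · exact h3.2
  obtain ⟨s, hs1, hs2⟩ := hF w' hw' (Nbr_sub hw'Q.1)
  have hmS := str_xt (mem_E0.1 hm).2 ω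
  have past : ∀ k ≤ ka, hdv (st el ω k) ∈ B := fun k hk =>
    (lt_hit (S := ∅) (show k < xt B el ω by omega)).2
  have hUx : U (bk c (st el ω ka)) = U (bk c em) := by
    rw [hU.st (e := el) (n := ka) (fun j hj => Finset.mem_coe.2 (past j (by omega)))
      (fun j hj => hmS.thru (Finset.mem_coe.2 (past j (by omega)))) c, ← hUl]
  obtain ⟨j, hj, hvis⟩ := vis_of hmS hU (Qs := Qs) (fun v hv => Finset.mem_coe.2
    (hBB v (Nbr_sub hv.1))) hxQ hch (co_bk c (st el ω ka)) hs1 (by rw [hUx]; exact hs2.symm)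
  have hcb : Cb (↑B) ω c em el (xt B em ω) ka Qs U := by
    refine ⟨hEx, hmS, ?_, h0, past, ?_, hxQ, ⟨j, hj, hvis⟩, ?_, hU, hUl, same⟩
    · by_contra h5
      have h6 : xt B em ω = 0 := by omega
      omega
    · intro v hv
      exact hBB v (Nbr_sub hv.1)
    · intro k hk hmem
      exact (lt_hit (S := Nbr B' F h) hk).1 hmem.1
  have hfr := hcb.fr' (x := x) (r := h + 1) (R := R) hR ?_ ?_ ?_ ↑D₀ ?_
    (D := (D₀ ∩ B) \ Tr B el (Nbr B' F h) ω) ?_
  · exact ⟨⟨h0, htip⟩, hfr.fresh⟩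
  · intro v hv
    have h5 := H632.nm_le.1 hv.2
    rw [H167.Q.mem_Bq]
    simp only [Prod.fst_sub, Prod.snd_sub] at h5
    omega
  · intro h5
    exact (mem_E0.1 hl).2 (hB' x hxB' _ h5)
  · intro e he h5 h6
    exfalso
    rcases he with ⟨h7, -⟩ | ⟨-, h7⟩
    · exact h5 (hB' x hxB' _ h7)
    · exact h6 (hB' x hxB' _ h7)
  · intro v hv hvc hn'
    exfalso
    have hvB : v ∈ B := hB' x hxB' _ (mem_Ann.1 hv).1
    rcases hn' with hn' | hn'
    · exact hn' hvB
    · exact hc v hvB hn' hvc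
  · intro v hv h5 h6 h7
    rw [Finset.mem_sdiff, Finset.mem_inter]
    refine ⟨⟨h6, h5⟩, fun h8 => ?_⟩
    rw [mem_Tr] at h8
    obtain ⟨k, hk, hkv⟩ := h8
    exact h7 k hk hkv

/-- The event: two strands and the boundary. -/
def T2 (D : Finset Pt) (c : Bool) (z : Pt) (r R : ℤ) (h : ℕ) : Set Cfg :=
  {ω | ∃ em el, M2 (Bq z R) (↑(Bq z r)) (↑D)ᶜ c h em el ω}

theorem cor_co (b : Bool) (v : Pt) : Cor v (H161.cor b v) ∧
    ((H161.cor b v).1 + (H161.cor b v).2) % 2 = pr b := by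
  cases b
  · refine ⟨H174.CT.cor_da' v, ?_⟩
    have := H161.odd_da v
    rw [Int.odd_iff] at this
    exact this
  · refine ⟨H174.CT.cor_pa' v, ?_⟩
    have := H161.even_pa v
    rw [Int.even_iff] at this
    exact this

/-- The potential is constant along connections of the colour off `D`. -/
theorem conn_off {D : Finset Pt} {η : Cfg} {z : Pt} {R : ℤ} {c : Bool} {S S' : Finset Pt}
    (hS' : ∀ v ∈ D, cf D η S' v = c) {em : Ed} {nm : ℕ} {U : Pt → ℤ}
    (hm : Str (↑(Bq z R)) (cf D η S) em nm) (hU : Pot (↑(Bq z R)) (cnt em (cf D η S) nm) U)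
    {s t : Pt} (hs : (s.1 + s.2) % 2 = pr (!c)) (h : Conn z R (cf D η S') s t) :
    U s = U t ∧ (t.1 + t.2) % 2 = pr (!c) := by
  induction h with
  | refl => exact ⟨rfl, hs⟩
  | @tail a b _ hab ih =>
    obtain ⟨i1, i2⟩ := ih
    obtain ⟨h1, h2⟩ := hab
    have hst : PStep {v | cf D η S' v = !c} a b := by
      rcases h2 with ⟨h3, h4⟩ | ⟨h3, h4⟩
      · have hc : c = false := by
          rw [Int.even_iff] at h3
          cases c
          · rfl
          · rw [h3] at i2; simp [pr] at i2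
        subst hc
        exact h4
      · have hc : c = true := by
          rw [Int.odd_iff] at h3
          cases c
          · rw [h3] at i2; simp [pr] at i2
          · rfl
        subst hc
        refine ⟨h4.1, h4.2.1, ?_⟩
        have := h4.2.2
        simp only [op, Set.mem_compl_iff, Set.mem_ofPred_eq, Bool.not_eq_true] at this
        exact this
    obtain ⟨c1, c2⟩ := FKA.cor_of_step hst
    obtain ⟨k1, k2, k3⟩ := hst
    set q : Pt := (min a.1 b.1, min a.2 b.2) with hq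
    have hqD : q ∉ D := fun h5 => by
      have h6 := hS' q h5
      rw [show cf D η S' q = !c from k3] at h6
      cases c <;> simp at h6
    have hqc : cf D η S q = !c := by
      rw [cf_out hqD]
      have : cf D η S' q = !c := k3
      rwa [cf_out hqD] at this
    have hpb : (b.1 + b.2) % 2 = pr (!c) := by omega
    refine ⟨i1.trans ?_, hpb⟩
    exact hU.cor (Finset.mem_coe.2 h1) (hm.thru (Finset.mem_coe.2 h1)) c1 c2 (by rw [hqc]; exact i2)
      (by rw [hqc]; exact hpb)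

/-- **Two strands and the boundary, with rate.** -/
theorem two_law {Q : ℝ} (hQ : 1 ≤ Q) (hRSW : RSW Q) : ∃ (κ : ℤ) (α C : ℝ), 4 ≤ κ ∧ 0 < α ∧ 0 < C ∧
    ∀ (z : Pt) (r R' R : ℤ) (h : ℕ), 1 ≤ r → κ * r ≤ R' → R' < R →
    ∀ (D : Finset Pt) (η : Cfg), Good η → ∀ (c : Bool) (P : Finset Pt),
    Frz1 D η z R' R c P → ∀ G : Cfg → ℝ, (∀ ω, 0 ≤ G ω) → Ind (D ∩ Bq z R) G →
      FK.Ex Q D η (fun ω => G ω * (T2 D c z r R h).indicator 1 ω) ≤
        C * 4 ^ P.card * (((h : ℝ) + 1) / R) ^ α * FK.Ex Q D η G := by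
  classical
  have hQ0 : 0 < Q := by linarith
  obtain ⟨α, Ca, hα, hCa, hdec, -⟩ := arm_fk hQ hRSW
  obtain ⟨κ, hκ, hent⟩ := QC.ent_two hQ hRSW
  refine ⟨κ, α, 8 * Q ^ 2 * Ca * 4 ^ α + 4 ^ α, hκ, hα, by positivity, ?_⟩
  intro z r R' R h hr hκR hR D η hη c P hF G hG0 hG
  have hR4 : 4 * r ≤ R' := le_trans (mul_le_mul_of_nonneg_right hκ (by omega)) hκR
  have hR0 : (0 : ℝ) < R := by exact_mod_cast (by omega : 0 < R)
  have hE0 : 0 ≤ FK.Ex Q D η G := Ex_nonneg hQ0 fun _ _ => hG0 _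
  have hx0 : 0 ≤ ((h : ℝ) + 1) / R := by positivity
  have h2P : (1 : ℝ) ≤ 4 ^ P.card := one_le_pow₀ (by norm_num)
  set l : ℤ := R - r - 1 with hl
  by_cases hbig : (h : ℤ) + 1 < l
  · have hB' : ∀ v ∈ (↑(Bq z r) : Set Pt), ∀ w ∈ Bq v l, w ∈ Bq z R := by
      intro v hv w hw
      rw [Finset.mem_coe, mem_Bq] at hv
      rw [mem_Bq] at hw ⊢
      omega
    have hBB : (↑(Bq z r) : Set Pt) ⊆ ↑(Bq z R) := fun v hv =>
      Finset.mem_coe.2 (hB' v hv v (by rw [mem_Bq]; omega))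
    set S₀ : Finset Pt := if c then D else ∅ with hS₀
    have hS₀D : S₀ ⊆ D := by
      rw [hS₀]
      split_ifs
      · exact Finset.Subset.refl _
      · exact Finset.empty_subset _
    have hS₀c : ∀ v ∈ D, cf D η S₀ v = c := by
      intro v hv
      unfold cf
      rw [if_pos hv, hS₀]
      cases c <;> simp [hv]
    set F : Pt → Set Pt := fun q => {v | v ∉ D ∧ Conn z R (cf D η S₀) (H161.cor (!c) v) q} with hFq
    -- the event
    have hev : ∀ S ⊆ D, cf D η S ∈ T2 D c z r R h → ∃ q ∈ P, ∃ ea,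
        Mb (Bq z R) (Nbr (↑(Bq z r)) (F q) h) (h + 1) l (D ∩ Bq z R) ea (cf D η S) := by
      rintro S hS ⟨em, el, hm, hl', hlm, U, hU, hUl, i, hi, w, hw, hn, s, hs1, hs2, hs3⟩
      have hcol : ∀ v ∈ Bq z R, v ∉ D → ∀ T, cf D η T v = !c := by
        intro v hv hvD T
        rw [cf_out hvD]
        have := hF.col v hv hvD
        revert this
        cases η v <;> cases c <;> simp
      have hwr : w ∈ Bq z r := by
        obtain ⟨l', -, p, -, hp2, -, hp4⟩ := hn
        rw [← hp2]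
        exact Finset.mem_coe.1 (hp4 l' le_rfl)
      have hwD : w ∉ D := fun h' => hw (Finset.mem_coe.2 h')
      have hwR : w ∈ Bq z R := Finset.mem_coe.1 (hBB (Finset.mem_coe.2 hwr))
      have hmS := str_xt (mem_E0.1 hm).2 (cf D η S)
      have hside : ∀ v ∈ Bq z R, v ∉ D → ∀ s', Cor v s' → (s'.1 + s'.2) % 2 = pr (!c) →
          U s' = U (H161.cor (!c) v) := by
        intro v hv hvD s' h1 h2
        obtain ⟨h3, h4⟩ := cor_co (!c) v
        exact hU.cor (Finset.mem_coe.2 hv) (hmS.thru (Finset.mem_coe.2 hv)) h1 h3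
          (by rw [hcol v hv hvD]; exact h2) (by rw [hcol v hv hvD]; exact h4)
      obtain ⟨q, hq, hconn⟩ := hF.con S₀ hS₀D w hwD (by
        rw [mem_Bq] at hwr
        simp only [nm, Prod.fst_sub, Prod.snd_sub, max_le_iff, abs_le]
        omega)
      rw [hcol w hwR hwD] at hconn
      have hUq : U (H161.cor (!c) w) = U q := (conn_off hS₀c hmS hU (cor_co (!c) w).2 hconn).1
      refine ⟨q, hq, el, M2.mb (ex_box z R) hbig hB' (fun v hv hvD => ?_) hm hl' hlm hU hUl hi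
        (show w ∈ F q from ⟨hwD, hconn⟩) hn ?_⟩
      · rw [hcol v hv hvD]
        cases c <;> simp
      · rintro w' ⟨hw'D, hw'c⟩ hw'B
        refine ⟨H161.cor (!c) w', (cor_co _ _).1, ?_⟩
        rw [(conn_off hS₀c hmS hU (cor_co (!c) w').2 hw'c).1, ← hUq, ← hside w hwR hwD s hs1 hs2]
        exact hs3
    have h1 : ∀ q ∈ P, FK.Ex Q D η (fun ω => G ω * {ω | ∃ ea, Mb (Bq z R)
        (Nbr (↑(Bq z r)) (F q) h) (h + 1) l (D ∩ Bq z R) ea ω}.indicator 1 ω) ≤
        2 * Q ^ 2 * Ca * ((((h : ℤ) + 1 : ℤ) : ℝ) / l) ^ α *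
          FK.Ex Q D η (fun ω => G ω * (En (Bq z R) (↑(Bq z r)) ω : ℝ)) := fun q _ =>
      mb_law hQ hdec (r := h + 1) (R := l) (by omega) hbig.le Nbr_sub hBB hη hG0 hG
    have h2 := hent z r R' R hr hκR hR D η hη P hF.con G hG0 (fun ω ω' hw => hG ω ω' fun v hv =>
      hw v fun hv' => hv (by
        rw [Finset.mem_inter] at hv' ⊢
        refine ⟨hv'.1, ?_⟩
        have h3 := hv'.2
        rw [mem_bxx] at h3
        rw [mem_Bq]
        simp only [nm, Prod.fst_sub, Prod.snd_sub, max_le_iff, abs_le] at h3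
        omega))
    have h3 : FK.Ex Q D η (fun ω => G ω * (En (Bq z R) (↑(Bq z r)) ω : ℝ)) ≤
        4 * 2 ^ P.card * FK.Ex Q D η G := by
      refine le_trans (Ex_mono hQ0 fun S _ => mul_le_mul_of_nonneg_left ?_ (hG0 _)) h2
      have h4 : (En (Bq z R) (↑(Bq z r)) (cf D η S) : ℝ) ≤
          ((QC.Ent z r R (cf D η S)).ncard : ℝ) := by exact_mod_cast en_le z r R _
      refine h4.trans ?_
      have h5 : (QC.Ent z r R (cf D η S)).ncard ≤ (QC.Ent z r R (cf D η S)).ncard ^ 2 :=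
        Nat.le_self_pow (by norm_num) _
      exact_mod_cast h5
    have hlR : ((h : ℝ) + 1) / l ≤ 4 * (((h : ℝ) + 1) / R) := by
      have hl0 : (0 : ℝ) < l := by exact_mod_cast (by omega : 0 < l)
      rw [mul_div_assoc', div_le_div_iff₀ hl0 hR0]
      have h5 : (R : ℝ) ≤ 4 * l := by exact_mod_cast (by omega : R ≤ 4 * l)
      have h6 := mul_le_mul_of_nonneg_left h5 (by positivity : 0 ≤ (h : ℝ) + 1)
      linarith
    have h4 : (((h : ℝ) + 1) / l) ^ α ≤ 4 ^ α * (((h : ℝ) + 1) / R) ^ α := by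
      rw [← Real.mul_rpow (by norm_num) hx0]
      refine Real.rpow_le_rpow (div_nonneg (by positivity) ?_) hlR hα.le
      exact_mod_cast (by omega : 0 ≤ l)
    push_cast at h1
    have hE2 : 0 ≤ FK.Ex Q D η (fun ω => G ω * (En (Bq z R) (↑(Bq z r)) ω : ℝ)) :=
      Ex_nonneg hQ0 fun _ _ => mul_nonneg (hG0 _) (by positivity)
    have hsum : FK.Ex Q D η (fun ω => G ω * (T2 D c z r R h).indicator 1 ω) ≤
        ∑ q ∈ P, FK.Ex Q D η (fun ω => G ω * {ω | ∃ ea, Mb (Bq z R)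
          (Nbr (↑(Bq z r)) (F q) h) (h + 1) l (D ∩ Bq z R) ea ω}.indicator 1 ω) := by
      rw [← Ex_sum]
      refine Ex_mono hQ0 fun S hS => ?_
      rw [← Finset.mul_sum]
      refine mul_le_mul_of_nonneg_left ?_ (hG0 _)
      by_cases hm : cf D η S ∈ T2 D c z r R h
      · obtain ⟨q, hq, ea, hea⟩ := hev S hS hm
        rw [Set.indicator_of_mem hm, Pi.one_apply]
        refine le_trans (le_of_eq ?_) (Finset.single_le_sum (f := fun q =>
          ({ω | ∃ ea, Mb (Bq z R) (Nbr (↑(Bq z r)) (F q) h) (h + 1) l (D ∩ Bq z R) ea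
            ω}.indicator (1 : Cfg → ℝ) (cf D η S))) (fun i _ => ind_nonneg _ _) hq)
        show _ = ({ω | ∃ ea, Mb (Bq z R) (Nbr (↑(Bq z r)) (F q) h) (h + 1) l (D ∩ Bq z R) ea
            ω}.indicator (1 : Cfg → ℝ) (cf D η S))
        rw [Set.indicator_of_mem (show cf D η S ∈ {ω | ∃ ea, Mb (Bq z R)
          (Nbr (↑(Bq z r)) (F q) h) (h + 1) l (D ∩ Bq z R) ea ω} from ⟨ea, hea⟩)]
        rfl
      · rw [Set.indicator_of_notMem hm]
        exact Finset.sum_nonneg fun i _ => ind_nonneg _ _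
    have hcard : (P.card : ℝ) ≤ 2 ^ P.card := by
      exact_mod_cast (Nat.lt_two_pow_self (n := P.card)).le
    have hmul : (P.card : ℝ) * 2 ^ P.card ≤ 4 ^ P.card := by
      calc (P.card : ℝ) * 2 ^ P.card ≤ 2 ^ P.card * 2 ^ P.card :=
            mul_le_mul_of_nonneg_right hcard (by positivity)
        _ = 4 ^ P.card := by rw [← mul_pow]; norm_num
    calc FK.Ex Q D η (fun ω => G ω * (T2 D c z r R h).indicator 1 ω)
        ≤ ∑ q ∈ P, FK.Ex Q D η (fun ω => G ω * {ω | ∃ ea, Mb (Bq z R)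
          (Nbr (↑(Bq z r)) (F q) h) (h + 1) l (D ∩ Bq z R) ea ω}.indicator 1 ω) := hsum
      _ ≤ ∑ q ∈ P, 2 * Q ^ 2 * Ca * (((h : ℝ) + 1) / l) ^ α *
          FK.Ex Q D η (fun ω => G ω * (En (Bq z R) (↑(Bq z r)) ω : ℝ)) :=
          Finset.sum_le_sum h1
      _ = P.card * (2 * Q ^ 2 * Ca * (((h : ℝ) + 1) / l) ^ α *
          FK.Ex Q D η (fun ω => G ω * (En (Bq z R) (↑(Bq z r)) ω : ℝ))) := by
          rw [Finset.sum_const, nsmul_eq_mul]
      _ ≤ P.card * (2 * Q ^ 2 * Ca * (4 ^ α * (((h : ℝ) + 1) / R) ^ α) *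
          (4 * 2 ^ P.card * FK.Ex Q D η G)) := by
          refine mul_le_mul_of_nonneg_left ?_ (Nat.cast_nonneg _)
          exact mul_le_mul (mul_le_mul_of_nonneg_left h4 (by positivity)) h3 hE2 (by positivity)
      _ = (P.card * 2 ^ P.card) * (8 * Q ^ 2 * Ca * 4 ^ α * ((((h : ℝ) + 1) / R) ^ α *
          FK.Ex Q D η G)) := by ring
      _ ≤ 4 ^ P.card * (8 * Q ^ 2 * Ca * 4 ^ α * ((((h : ℝ) + 1) / R) ^ α * FK.Ex Q D η G)) :=
          mul_le_mul_of_nonneg_right hmul (by positivity)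
      _ ≤ _ := by
          have : 0 ≤ 4 ^ α * 4 ^ P.card * (((h : ℝ) + 1) / R) ^ α * FK.Ex Q D η G := by positivity
          nlinarith
  · -- trivial bound
    have h1 : FK.Ex Q D η (fun ω => G ω * (T2 D c z r R h).indicator 1 ω) ≤ FK.Ex Q D η G := by
      refine Ex_mono hQ0 fun S _ => ?_
      refine mul_le_of_le_one_right (hG0 _) ?_
      by_cases h1 : cf D η S ∈ T2 D c z r R h
      · rw [Set.indicator_of_mem h1]; simp
      · rw [Set.indicator_of_notMem h1]; norm_num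
    refine h1.trans ?_
    have h2 : 1 ≤ 4 ^ α * (((h : ℝ) + 1) / R) ^ α := by
      rw [← Real.mul_rpow (by norm_num) hx0]
      refine Real.one_le_rpow ?_ hα.le
      rw [mul_div_assoc', one_le_div hR0]
      have h5 : R ≤ 4 * ((h : ℤ) + 1) := by omega
      have h6 : (R : ℝ) ≤ 4 * ((h : ℝ) + 1) := by exact_mod_cast h5
      exact h6
    have h3 : 0 ≤ 8 * Q ^ 2 * Ca * 4 ^ α * (4 ^ P.card * (((h : ℝ) + 1) / R) ^ α *
      FK.Ex Q D η G) := by positivity
    have h4 : FK.Ex Q D η G ≤ (4 ^ α * (((h : ℝ) + 1) / R) ^ α) * (4 ^ P.card * FK.Ex Q D η G) := by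
      have h5 : FK.Ex Q D η G ≤ 4 ^ P.card * FK.Ex Q D η G := le_mul_of_one_le_left hE0 h2P
      exact h5.trans (le_mul_of_one_le_left (by positivity) h2)
    linarith

end Vale.Agent.P167.H476.Q
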