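import Vale.Agent.P167.H476.Q.Out
import Vale.Agent.P167.H531.Q.Br1

/-!
# P167, general `q`, continuity: boundary nodes

`gap2'`: the form of `gap2` with the boundary node `ndm S (!c) dd` of an exterior dart.
-/

set_option autoImplicit false
set_option linter.unusedVariables false
set_option linter.unusedSectionVars false

namespace Vale.Agent.P167.H476.K

open Finset Relation
open Vale.Agent.P145.FB (PStep)
open Vale.Agent.P167.H166
open Vale.Agent.P167.FKA (Cor)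
open Vale.Agent.P167.E6 (edges Encloses IsPolygon dir face wiredOpen Medial)
open Vale.Agent.P167.E2 (mem_edges fc)
open Vale.Agent.P167.H718 (Dq etaQ wE mem_Dq' mem_wE wE_sub)
open Vale.Agent.P167.QC (par sd sd_cor)
open Vale.Agent.P167.H531.Q (Gm Sm BC)
open Vale.Agent.P167.H531.K (Nod Jn nod ndm)
open Vale.Agent.P167.H476.Q (M2 T2)
open Vale.Agent.P167.H174.CT (NearC wE_notMem cor_of_sq)

variable {n : ℕ} {p : ZMod n → ℤ × ℤ} {S : Finset (ℤ × ℤ)} {k : ℕ} {z : ℤ × ℤ} {R : ℤ} {c : Bool}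

theorem cor_nm {v w s : ℤ × ℤ} (h1 : Cor v s) (h2 : Cor w s) : nm (v - w) ≤ 1 := by
  obtain ⟨a1, a2⟩ := h1
  obtain ⟨b1, b2⟩ := h2
  simp only [nm, Prod.fst_sub, Prod.snd_sub, max_le_iff, abs_le]
  omega

/-- A wired vertex is a corner of a wired square. -/
theorem sq_wired (hp : IsPolygon p) (hk : k + 1 < n) {i : ℕ} (hi : i < n) (hki : k ≤ i) :
    ∃ w₀, w₀ ∉ Dq S p k ∧ Cor w₀ (H192.ro (p i)) := by
  by_cases hi' : i + 1 < n
  · obtain ⟨d, hd⟩ := hp.2.2 (i : ZMod n)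
    refine ⟨H192.sq s(p i, p i + dir d), wE_notMem ?_, cor_of_sq _ _⟩
    rw [H192.ed_sq ⟨p i, d, rfl⟩, mem_wE]
    exact ⟨i, hki, hi', by rw [← hd]⟩
  · obtain ⟨d, hd⟩ := hp.2.2 ((i - 1 : ℕ) : ZMod n)
    have e1 : p i = p ((i - 1 : ℕ) : ZMod n) + dir d := by
      rw [← hd]
      congr 1
      have : i = (i - 1) + 1 := by omega
      conv_lhs => rw [this]
      push_cast
      rfl
    refine ⟨H192.sq s(p ((i - 1 : ℕ) : ZMod n), p ((i - 1 : ℕ) : ZMod n) + dir d), wE_notMem ?_, ?_⟩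
    · rw [H192.ed_sq ⟨_, d, rfl⟩, mem_wE]
      exact ⟨i - 1, by omega, by omega, by rw [← hd]⟩
    · obtain ⟨n1, n2⟩ := H192.ro_dir (p ((i - 1 : ℕ) : ZMod n)) d
      rw [e1, H192.sq_dir]
      constructor <;> simp only <;> omega

/-- An outer face has a square outside. -/
theorem sq_out (hp : IsPolygon p) (hS : Encloses p S) {f : ℤ × ℤ} (hf : f ∉ S) :
    ∃ w₀, w₀ ∉ Dq S p k ∧ Cor w₀ (H192.rf f) := by
  obtain ⟨g, hg, hN⟩ := dc_out hp hS (f.1 + 1) hf
  rcases ReflTransGen.cases_head hg with h1 | ⟨a, h1, -⟩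
  · have h2 := congrArg H192.rf' h1
    rw [H192.rf'_rf, H192.rf'_rf] at h2
    rw [← h2] at hN
    omega
  · obtain ⟨c1, -⟩ := FKA.cor_of_step h1
    refine ⟨_, fun h2 => ?_, c1⟩
    exact h1.2.2 (H192.cfg_true.2 (by exact_mod_cast (mem_Dq'.1 h2).1))

theorem nod_cor_true (d : Medial) : (nod S).cor (ndm S true d) = H192.ro d.1 := rfl

theorem nod_cor_false (d : Medial) : (nod S).cor (ndm S false d) = H192.rf (fc d) := by
  unfold ndm
  rw [if_neg Bool.false_ne_true]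
  split_ifs <;> rfl

/-- The boundary node of an exterior dart is a corner of a square off the domain. -/
theorem bnd_sq (hp : IsPolygon p) (hS : Encloses p S) (hk : k + 1 < n) {dd : Medial} {i : ℕ}
    (hi : i < n) (hd : dd.1 = p i) (hf : fc dd ∉ S) (hki : k ≤ i ↔ c = true) :
    ∃ w₀, w₀ ∉ Dq S p k ∧ Cor w₀ ((nod S).cor (ndm S c dd)) ∧
      nm (w₀ - hdv (H192.me dd)) ≤ 1 ∧
      (((nod S).cor (ndm S c dd)).1 + ((nod S).cor (ndm S c dd)).2) % 2 = par c := by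
  cases c
  · rw [nod_cor_false]
    obtain ⟨w₀, h1, h2⟩ := sq_out (k := k) hp hS hf
    refine ⟨w₀, h1, h2, ?_, ?_⟩
    · have h3 := sd_cor false (H192.me dd)
      have h4 : sd false (H192.me dd) = H192.rf (fc dd) := H192.rs_me dd
      rw [h4] at h3
      exact cor_nm h2 h3
    · have := H192.odd_rf (fc dd)
      rw [Int.even_iff] at this
      show _ = (1 : ℤ)
      omega
  · rw [nod_cor_true, hd]
    obtain ⟨w₀, h1, h2⟩ := sq_wired (S := S) hp hk hi (hki.2 rfl)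
    refine ⟨w₀, h1, h2, ?_, Int.even_iff.1 (H192.even_ro _)⟩
    have h3 := sd_cor true (H192.me dd)
    have h4 : sd true (H192.me dd) = H192.ro dd.1 := H192.ls_me dd
    rw [h4, hd] at h3
    exact cor_nm h2 h3

/-- **The gap between a bank of the path and the boundary of the domain**, boundary nodes. -/
theorem gap2' {ω : Cfg} {Γ AL : Set Ed} {r : ℤ} {h : ℕ}
    (hp : IsPolygon p) (hE : Encloses p S) (hk0 : 0 < k) (hk : k + 1 < n)
    (hN : NearC p k z R (!c)) (hω : ∀ v ∈ FK.Bq z R, v ∉ Dq S p k → ω v = !c)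
    (hG : Gm z R ω Γ) (hrR : r ≤ R) {W : Set (ℤ × ℤ)} (hS : Sm z r h W)
    {d : Ed} (hd : d ∈ Γ) (td : hdv d ∈ W) {dd : Medial} {i : ℕ} (hi : i < n) (hdd : dd.1 = p i)
    (hf : fc dd ∉ S) (hki : k ≤ i ↔ (!c) = true)
    (hJ : Jn (nod S) z R ω Γ AL ((nod S).nd c d) (ndm S (!c) dd))
    (hW : ∀ v, nm (v - hdv (H192.me dd)) ≤ 1 → v ∈ W) : ω ∈ T2 (Dq S p k) c z r R (2 * h) := by
  obtain ⟨w₀, h1, h2, h3, h4⟩ := bnd_sq hp hE hk hi hdd hf hki
  exact gap2 hp hE hk0 hk hN hω hG hrR hS hd td hJ h1 (hW _ h3) h2 h4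

end Vale.Agent.P167.H476.K
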