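import Vale.Agent.P167.H531.Q.Br5

/-!
# P167, general `q`, continuity: every point of the slit domain is joined to a node

The statement `near_node` of `H531/Q/Br5`, without a condition on the distance to the start.
-/

set_option autoImplicit false
set_option linter.unusedVariables false
set_option linter.unusedSectionVars false
set_option linter.unusedSimpArgs false

open Set Metric

namespace Vale.Agent.P167.H476.N

open Vale.Agent.P167.E6 Vale.Agent.P167.E2 Vale.Agent.P167.Fjord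
open Vale.Agent.P167.H166 Vale.Agent.P167.H531.K

variable {n : ℕ} {p : ZMod n → ℤ × ℤ} {S : Finset (ℤ × ℤ)} {k : ℕ} {A : Finset (Sym2 (ℤ × ℤ))}
  {M : ℕ} {δ : ℝ} {w y u : ℂ} {v : ℤ × ℤ}

/-! ### Local coordinates at a dart -/

noncomputable def xi (c : Medial) (u : ℂ) : ℝ :=
  (u.re - c.1.1) * (dir c.2).1 + (u.im - c.1.2) * (dir c.2).2

noncomputable def et (c : Medial) (u : ℂ) : ℝ := xi (c.1, c.2 + 1) u

theorem xi_0 : xi (v, 0) u = u.re - v.1 := by simp [xi, dir]
theorem xi_1 : xi (v, 1) u = u.im - v.2 := by simp [xi, dir]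
theorem xi_2 : xi (v, 2) u = -(u.re - v.1) := by simp [xi, dir]
theorem xi_3 : xi (v, 3) u = -(u.im - v.2) := by simp [xi, dir]
theorem et_0 : et (v, 0) u = u.im - v.2 := xi_1
theorem et_1 : et (v, 1) u = -(u.re - v.1) := xi_2
theorem et_2 : et (v, 2) u = -(u.im - v.2) := xi_3
theorem et_3 : et (v, 3) u = u.re - v.1 := by
  show xi (v, 3 + 1) u = _
  rw [show (3 : Fin 4) + 1 = 0 from rfl, xi_0]

theorem ef_iff (r : Fin 4) : u ∈ EF (face v r) ↔ (-(3 / 8) < xi (v, r) u ∧ xi (v, r) u < 11 / 8) ∧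
    (-(3 / 8) < et (v, r) u ∧ et (v, r) u < 11 / 8) := by
  revert r
  refine forall4 ?_ ?_ ?_ ?_ <;>
    simp only [EF, face0, face1, face2, face3, mem_ofPred_eq, xi_0, xi_1, xi_2, xi_3, et_0, et_1,
      et_2, et_3] <;> push_cast <;>
    refine ⟨fun h => ?_, fun h => ?_⟩ <;> obtain ⟨⟨h1, h2⟩, h3, h4⟩ := h <;>
    refine ⟨⟨?_, ?_⟩, ?_, ?_⟩ <;> linarith

theorem et_rot (r : Fin 4) : et (v, r + 1) u = -xi (v, r) u := by
  revert r
  refine forall4 ?_ ?_ ?_ ?_
  · rw [show (0 : Fin 4) + 1 = 1 from rfl, et_1, xi_0]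
  · rw [show (1 : Fin 4) + 1 = 2 from rfl, et_2, xi_1]
  · rw [show (2 : Fin 4) + 1 = 3 from rfl, et_3, xi_2, neg_neg]
  · rw [show (3 : Fin 4) + 1 = 0 from rfl, et_0, xi_3, neg_neg]

theorem xi_rot (r : Fin 4) : xi (v, r + 1) u = et (v, r) u := rfl

theorem xi_aff {c : Medial} {s : ℝ} (h1 : u.re = w.re + s * (y.re - w.re))
    (h2 : u.im = w.im + s * (y.im - w.im)) : xi c u = xi c w + s * (xi c y - xi c w) := by
  unfold xi
  rw [h1, h2]
  ring

theorem et_aff {c : Medial} {s : ℝ} (h1 : u.re = w.re + s * (y.re - w.re))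
    (h2 : u.im = w.im + s * (y.im - w.im)) : et c u = et c w + s * (et c y - et c w) :=
  xi_aff h1 h2

theorem xi_cpt {θ : ℝ} {c : Medial} : xi c (cpt θ c) = θ ∧ et c (cpt θ c) = θ := by
  obtain ⟨v, r⟩ := c
  revert r
  refine forall4 ?_ ?_ ?_ ?_ <;>
    simp only [cpt_0, cpt_1, cpt_2, cpt_3, xi_0, xi_1, xi_2, xi_3, et_0, et_1, et_2, et_3] <;>
    constructor <;> ring

theorem eq_cpt {c : Medial} (h : xi c u = et c u) : u = cpt (xi c u) c := by
  obtain ⟨v, r⟩ := c
  revert r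
  refine forall4 ?_ ?_ ?_ ?_ <;> intro h <;>
    simp only [cpt_0, cpt_1, cpt_2, cpt_3, xi_0, xi_1, xi_2, xi_3, et_0, et_1, et_2, et_3]
      at h ⊢ <;>
    apply Complex.ext <;> simp only <;> linarith

/-- The points of a bent piece. -/
theorem bt_xi {c : Medial} (h : u ∈ Bt c) : xi c u = et c u ∧ 1 / 4 ≤ xi c u ∧ xi c u ≤ 3 / 8 := by
  obtain ⟨s, h0, h1, e1, e2⟩ := seg_coord h
  have a1 := xi_aff (c := c) e1 e2
  have a2 := et_aff (c := c) e1 e2
  rw [(xi_cpt (θ := 1 / 4) (c := c)).1, (xi_cpt (θ := 3 / 8) (c := c)).1] at a1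
  rw [(xi_cpt (θ := 1 / 4) (c := c)).2, (xi_cpt (θ := 3 / 8) (c := c)).2] at a2
  refine ⟨by rw [a1, a2], ?_, ?_⟩ <;> rw [a1] <;> linarith

/-- Two darts at the same vertex. -/
theorem bt_box {c : Medial} (h : u ∈ Bt c) (h1 : |u.re - v.1| < 3 / 8) (h2 : |u.im - v.2| < 3 / 8) :
    c.1 = v := by
  obtain ⟨c1, r⟩ := c
  have hx := bt_xi h
  clear h
  rw [abs_lt] at h1 h2
  have key : |u.re - c1.1| ≤ 3 / 8 ∧ |u.im - c1.2| ≤ 3 / 8 := by
    revert r
    refine forall4 ?_ ?_ ?_ ?_ <;> intro hx <;>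
      simp only [xi_0, xi_1, xi_2, xi_3, et_0, et_1, et_2, et_3] at hx <;>
      obtain ⟨a, b, c⟩ := hx <;> constructor <;> rw [abs_le] <;> constructor <;> linarith
  obtain ⟨k1, k2⟩ := key
  rw [abs_le] at k1 k2
  have aux : ∀ x y : ℤ, (x : ℝ) < y + 1 → (y : ℝ) < x + 1 → x = y := by
    intro x y h1 h2
    have h1 : x < y + 1 := by exact_mod_cast h1
    have h2 : y < x + 1 := by exact_mod_cast h2
    omega
  exact Prod.ext (aux _ _ (by linarith) (by linarith)) (aux _ _ (by linarith) (by linarith))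

/-- A bent piece next to a vertex. -/
theorem bt_loc {c : Medial} (r : Fin 4) (h : u ∈ Bt c) (h1 : 1 / 4 < xi (v, r) u) (h2 : xi (v, r) u < 3 / 8)
    (h3 : -(1 / 4) < et (v, r) u) (h4 : et (v, r) u < 3 / 8) : c = (v, r) := by
  have hb : |u.re - v.1| < 3 / 8 ∧ |u.im - v.2| < 3 / 8 := by
    clear h
    revert r
    refine forall4 ?_ ?_ ?_ ?_ <;> intro h1 h2 h3 h4 <;>
      simp only [xi_0, xi_1, xi_2, xi_3, et_0, et_1, et_2, et_3] at h1 h2 h3 h4 <;>
      constructor <;> rw [abs_lt] <;> constructor <;> linarith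
  have hv := bt_box h hb.1 hb.2
  obtain ⟨c1, s⟩ := c
  simp only at hv
  subst hv
  obtain ⟨a1, a2, a3⟩ := bt_xi h
  have e : ∀ s r : Fin 4, s = r ∨ s = r + 1 ∨ s = r + 2 ∨ s = r + 3 := by decide
  rcases e s r with rfl | rfl | rfl | rfl
  · rfl
  · rw [xi_rot, et_rot] at a1
    rw [xi_rot] at a2
    linarith
  · have e2 : r + 2 = r + 1 + 1 := by
      generalize r = r
      revert r
      decide
    rw [e2, xi_rot, et_rot] at a2
    linarith
  · have e2 : r + 3 = r + 1 + 1 + 1 := by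
      generalize r = r
      revert r
      decide
    rw [e2, xi_rot, et_rot, et_rot, xi_rot] at a1
    rw [e2, xi_rot, et_rot, xi_rot] at a2
    linarith


/-- A bent piece lies in the cell of its face. -/
theorem bt_co {c : Medial} {m l : ℤ} (h : u ∈ Bt c) (ho : Co m l u) :
    m = 2 * (fc c).1 ∧ l = 2 * (fc c).2 := by
  obtain ⟨v, r⟩ := c
  have hx := bt_xi h
  clear h
  obtain ⟨⟨o1, o2⟩, o3, o4⟩ := ho
  have aux : ∀ x y : ℤ, (x : ℝ) < y + 1 → (y : ℝ) < x + 1 → x = y := by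
    intro x y h1 h2
    have h1 : x < y + 1 := by exact_mod_cast h1
    have h2 : y < x + 1 := by exact_mod_cast h2
    omega
  revert r
  refine forall4 ?_ ?_ ?_ ?_ <;> intro hx <;>
    simp only [xi_0, xi_1, xi_2, xi_3, et_0, et_1, et_2, et_3] at hx <;>
    simp only [fc_0, fc_1, fc_2, fc_3] <;> obtain ⟨a, b, c⟩ := hx <;> constructor <;>
    refine aux _ _ ?_ ?_ <;> push_cast <;> linarith

/-- The first piece of the curve. -/
theorem bt_zM (hδ : 0 < δ) (h : u ∈ Bt (cs p)) : u ∈ zM p k A δ M := by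
  obtain ⟨h1, h2, h3⟩ := bt_xi h
  have h4 := eq_cpt h1
  refine ⟨3 - 8 * xi (cs p) u, ⟨by linarith, ?_⟩, ?_⟩
  · have : (0 : ℝ) ≤ M := Nat.cast_nonneg M
    linarith
  · show (δ : ℂ) * lin (xv p k A) _ = _
    rw [lin_first (by linarith), show (3 : ℝ) / 8 - (3 - 8 * xi (cs p) u) / 8 = xi (cs p) u by ring,
      ← h4]

/-- The two ends of the side of a free edge. -/
theorem on_side {e : Sym2 (ℤ × ℤ)} {x y : Medial} (h : VStep e x y ∨ FStep e x y) (r : Fin 4)
    (hz : u ∈ Lseg x y) (h1 : 1 / 4 < xi (v, r) u) (h2 : xi (v, r) u < 3 / 4)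
    (h3 : -(1 / 4) < et (v, r) u) (h4 : et (v, r) u < 3 / 4) :
    (hl x = hl (v, r) ∧ hl y = hl (v + dir r, r + 1)) ∨
      (hl y = hl (v, r) ∧ hl x = hl (v + dir r, r + 1)) := by
  have a10 : (0 : Fin 4) + 1 = 1 := rfl
  have a21 : (1 : Fin 4) + 1 = 2 := rfl
  have a32 : (2 : Fin 4) + 1 = 3 := rfl
  have a03 : (3 : Fin 4) + 1 = 0 := rfl
  have aux : ∀ x y : ℤ, (x : ℝ) < y + 1 → (y : ℝ) < x + 1 → x = y := by
    intro x y h1 h2
    have h1 : x < y + 1 := by exact_mod_cast h1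
    have h2 : y < x + 1 := by exact_mod_cast h2
    omega
  revert r
  refine forall4 ?_ ?_ ?_ ?_ <;> intro h1 h2 h3 h4 <;>
    simp only [xi_0, xi_1, xi_2, xi_3, et_0, et_1, et_2, et_3] at h1 h2 h3 h4
  · obtain ⟨l, e1, e2⟩ := on_h h hz (m := 2 * v.1) (by push_cast; linarith)
      (by push_cast; linarith)
    have e3 : l = 2 * v.2 := aux _ _ (by push_cast; linarith) (by push_cast; linarith)
    subst e3
    have w1 : hl (v, 0) = (2 * v.1, 2 * v.2) := by
      simp only [hl, fc_0]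
      ext <;> simp only [Prod.fst_add, Prod.snd_add] <;> ring
    have w2 : hl (v + dir 0, 0 + 1) = (2 * v.1 + 1, 2 * v.2) := by
      rw [a10]
      simp only [hl, fc_1, dir0]
      ext <;> simp only [Prod.fst_add, Prod.snd_add] <;> ring
    rw [w1, w2]
    exact e2
  · obtain ⟨m, e1, e2⟩ := on_v h hz (l := 2 * v.2) (by push_cast; linarith)
      (by push_cast; linarith)
    have e3 : m = 2 * v.1 - 1 := aux _ _ (by push_cast; linarith) (by push_cast; linarith)
    subst e3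
    have w1 : hl (v, 1) = (2 * v.1 - 1, 2 * v.2) := by
      simp only [hl, fc_1]
      ext <;> simp only [Prod.fst_add, Prod.snd_add] <;> ring
    have w2 : hl (v + dir 1, 1 + 1) = (2 * v.1 - 1, 2 * v.2 + 1) := by
      rw [a21]
      simp only [hl, fc_2, dir1]
      ext <;> simp only [Prod.fst_add, Prod.snd_add] <;> ring
    rw [w1, w2]
    exact e2
  · obtain ⟨l, e1, e2⟩ := on_h h hz (m := 2 * v.1 - 2) (by push_cast; linarith)
      (by push_cast; linarith)
    have e3 : l = 2 * v.2 - 1 := aux _ _ (by push_cast; linarith) (by push_cast; linarith)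
    subst e3
    have w1 : hl (v, 2) = (2 * v.1 - 2 + 1, 2 * v.2 - 1) := by
      simp only [hl, fc_2]
      ext <;> simp only [Prod.fst_add, Prod.snd_add] <;> ring
    have w2 : hl (v + dir 2, 2 + 1) = (2 * v.1 - 2, 2 * v.2 - 1) := by
      rw [a32]
      simp only [hl, fc_3, dir2]
      ext <;> simp only [Prod.fst_add, Prod.snd_add] <;> ring
    rw [w1, w2]
    tauto
  · obtain ⟨m, e1, e2⟩ := on_v h hz (l := 2 * v.2 - 2) (by push_cast; linarith)
      (by push_cast; linarith)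
    have e3 : m = 2 * v.1 := aux _ _ (by push_cast; linarith) (by push_cast; linarith)
    subst e3
    have w1 : hl (v, 3) = (2 * v.1, 2 * v.2 - 2 + 1) := by
      simp only [hl, fc_3]
      ext <;> simp only [Prod.fst_add, Prod.snd_add] <;> ring
    have w2 : hl (v + dir 3, 3 + 1) = (2 * v.1, 2 * v.2 - 2) := by
      rw [a03]
      simp only [hl, fc_0, dir3]
      ext <;> simp only [Prod.fst_add, Prod.snd_add] <;> ring
    rw [w1, w2]
    tauto

/-- No corner in the strip. -/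
theorem c14_strip (r : Fin 4) {d : Medial} (h1 : 1 / 4 < xi (v, r) (cpt (1 / 4) d))
    (h2 : xi (v, r) (cpt (1 / 4) d) < 3 / 4) : False := by
  have c1 := c14_re d
  have c2 := c14_im d
  have aux : ∀ x y : ℤ, (x : ℝ) < y → (y : ℝ) < x + 1 → False := by
    intro x y h1 h2
    have h1 : x < y := by exact_mod_cast h1
    have h2 : y < x + 1 := by exact_mod_cast h2
    omega
  revert r
  refine forall4 ?_ ?_ ?_ ?_ <;> intro h1 h2 <;>
    simp only [xi_0, xi_1, xi_2, xi_3] at h1 h2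
  · exact aux (2 * v.1) (hl d).1 (by push_cast; linarith) (by push_cast; linarith)
  · exact aux (2 * v.2) (hl d).2 (by push_cast; linarith) (by push_cast; linarith)
  · exact aux (2 * v.1 - 2) (hl d).1 (by push_cast; linarith) (by push_cast; linarith)
  · exact aux (2 * v.2 - 2) (hl d).2 (by push_cast; linarith) (by push_cast; linarith)

section

variable (hp : IsPolygon p) (hS : Encloses p S) (hk : k + 1 < n) (hA : A ⊆ edges S)
include hp hS hk hA

/-- A segment inside a cell. -/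
theorem cell_seg' (hδ : 0 < δ) (hM : M ≤ len p k A) (hw : w ∈ sD1 p k S A δ M) {m l : ℤ}
    (hc : Cc m l w) (ho : Co m l y)
    (hcs : ∀ u ∈ segment ℝ w y, u ≠ w → Co m l u → u ∉ Bt (cs p)) {f : ℤ × ℤ} (hf : f ∈ S)
    (hwf : w ∈ EF f) (hyf : y ∈ EF f) : segment ℝ w y ⊆ sD1 p k S A δ M := by
  intro u hu
  refine ⟨seg_O1 hf hwf hyf hu, fun hz => ?_⟩
  by_cases hne : u = w
  · rw [hne] at hz
    exact hw.2 hz
  obtain ⟨s, h0, h1, e1, e2⟩ := seg_pos hu hne
  obtain ⟨⟨c1, c2⟩, c3, c4⟩ := hc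
  obtain ⟨⟨o1, o2⟩, o3, o4⟩ := ho
  have i1 : (m : ℝ) < 2 * u.re - 1 / 2 := by
    have := cnv_lt h0 h1 c1 o1
    rw [e1]; linarith
  have i2 : 2 * u.re - 1 / 2 < m + 1 := by
    have := cnv_gt h0 h1 c2 o2
    rw [e1]; linarith
  have i3 : (l : ℝ) < 2 * u.im - 1 / 2 := by
    have := cnv_lt h0 h1 c3 o3
    rw [e2]; linarith
  have i4 : 2 * u.im - 1 / 2 < l + 1 := by
    have := cnv_gt h0 h1 c4 o4
    rw [e2]; linarith
  rcases (obs (S := S) hp hS hA hδ hM).cov _ hz with ⟨x, y', a1, a2⟩ | ⟨d, a1, a2⟩ | ⟨d, a1, a2⟩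
  · obtain ⟨e, he⟩ := (obs (S := S) hp hS hA hδ hM).step x y' a1
    exact frac_on he i1 i2 i3 i4 a2
  · rw [a1] at a2
    exact hcs u hu hne ⟨⟨i1, i2⟩, i3, i4⟩ a2
  · rw [a2, c14_re] at i1 i2
    have b1 : m < (hl d).1 := by
      have : (m : ℝ) < (hl d).1 := by linarith
      exact_mod_cast this
    have b2 : (hl d).1 < m + 1 := by
      have : ((hl d).1 : ℝ) < m + 1 := by linarith
      exact_mod_cast this
    omega

/-- A segment which may cross the side of an edge outside of the domain. -/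
theorem lc_side (hδ : 0 < δ) (hM : M ≤ len p k A) (hw : w ∈ sD1 p k S A δ M) (r : Fin 4)
    (h1 : face v r ∉ S) (h2 : face v (r - 1) ∉ S)
    (w1 : 1 / 4 ≤ xi (v, r) w) (w2 : xi (v, r) w ≤ 3 / 4) (w3 : -(1 / 4) ≤ et (v, r) w)
    (w4 : et (v, r) w ≤ 3 / 4) (y1 : 1 / 4 < xi (v, r) y) (y2 : xi (v, r) y < 3 / 4)
    (y3 : -(1 / 4) < et (v, r) y) (y4 : et (v, r) y < 3 / 4)
    (hcs : ∀ u s : _, 0 < s → s ≤ 1 → xi (v, r) u = xi (v, r) w + s * (xi (v, r) y - xi (v, r) w) →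
      et (v, r) u = et (v, r) w + s * (et (v, r) y - et (v, r) w) → u ∉ Bt (cs p))
    {f : ℤ × ℤ} (hf : f ∈ S) (hwf : w ∈ EF f) (hyf : y ∈ EF f) :
    segment ℝ w y ⊆ sD1 p k S A δ M := by
  intro u hu
  refine ⟨seg_O1 hf hwf hyf hu, fun hz => ?_⟩
  by_cases hne : u = w
  · rw [hne] at hz
    exact hw.2 hz
  obtain ⟨s, h0, h1', e1, e2⟩ := seg_pos hu hne
  have a1 := xi_aff (c := (v, r)) e1 e2
  have a2 := et_aff (c := (v, r)) e1 e2
  have i1 : 1 / 4 < xi (v, r) u := by rw [a1]; exact cnv_lt h0 h1' w1 y1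
  have i2 : xi (v, r) u < 3 / 4 := by rw [a1]; exact cnv_gt h0 h1' w2 y2
  have i3 : -(1 / 4) < et (v, r) u := by rw [a2]; exact cnv_lt h0 h1' w3 y3
  have i4 : et (v, r) u < 3 / 4 := by rw [a2]; exact cnv_gt h0 h1' w4 y4
  rcases (obs (S := S) hp hS hA hδ hM).cov _ hz with ⟨x, y', b1, b2⟩ | ⟨d, b1, b2⟩ | ⟨d, b1, b2⟩
  · obtain ⟨e, he⟩ := (obs (S := S) hp hS hA hδ hM).step x y' b1
    have hs := on_side he r b2 i1 i2 i3 i4
    obtain ⟨i, hi, rfl, rfl⟩ := b1
    refine fside hp hS hk hA hi (x := (v, r)) (y := (v + dir r, r + 1))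
      (fun h => dir_ne_zero r (by simpa using h)) ?_ ?_
    · show s(v, v + dir r) ∉ edges S
      rw [mem_edges]
      rintro (h | h)
      exacts [h1 h, h2 h]
    · tauto
  · rw [b1] at b2
    exact hcs u s h0 h1' a1 a2 b2
  · rw [b2] at i1 i2
    exact c14_strip r i1 i2

omit hp hS hk hA in
theorem cpt_bt {c : Medial} {θ : ℝ} (h1 : 1 / 4 ≤ θ) (h2 : θ ≤ 3 / 8) : cpt θ c ∈ Bt c := by
  refine ⟨3 - 8 * θ, 8 * θ - 2, by linarith, by linarith, by ring, ?_⟩
  unfold cpt
  simp only [Complex.real_smul]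
  push_cast
  ring

omit hp hS hk hA in
theorem xi_bd {a b : ℂ} {t : ℝ} (r : Fin 4) (h1 : |xi (v, r) a - xi (v, r) b| ≤ t)
    (h2 : |et (v, r) a - et (v, r) b| ≤ t) : |a.re - b.re| ≤ t ∧ |a.im - b.im| ≤ t := by
  rw [abs_le] at h1 h2
  revert r
  refine forall4 ?_ ?_ ?_ ?_ <;> intro h1 h2 <;>
    simp only [xi_0, xi_1, xi_2, xi_3, et_0, et_1, et_2, et_3] at h1 h2 <;>
    constructor <;> rw [abs_le] <;> constructor <;> linarith

/-- A point on an edge. -/
noncomputable def qe (v : ℤ × ℤ) (r : Fin 4) : ℂ :=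
  ⟨v.1 + 5 / 16 * (dir r).1, v.2 + 5 / 16 * (dir r).2⟩

omit hp hS hk hA in
theorem xi_qe (r : Fin 4) : xi (v, r) (qe v r) = 5 / 16 ∧ et (v, r) (qe v r) = 0 := by
  revert r
  refine forall4 ?_ ?_ ?_ ?_ <;>
    simp only [xi_0, xi_1, xi_2, xi_3, et_0, et_1, et_2, et_3, qe, dir0, dir1, dir2, dir3] <;>
    push_cast <;> constructor <;> ring

omit hp hS hk hA in
theorem xi_pt (r : Fin 4) : xi (v, r) (pt v) = 0 ∧ et (v, r) (pt v) = 0 := by
  revert r
  refine forall4 ?_ ?_ ?_ ?_ <;>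
    simp only [xi_0, xi_1, xi_2, xi_3, et_0, et_1, et_2, et_3, pt_re, pt_im] <;>
    constructor <;> ring

omit hp hS hk hA in
theorem qe_seg (r : Fin 4) : qe v r ∈ segment ℝ (pt v) (Fjord.em (v, r - 1)) := by
  have h : Fjord.em (v, r - 1) = ⟨v.1 + 1 / 2 * (dir r).1, v.2 + 1 / 2 * (dir r).2⟩ := by
    have h1 : (adv (v, r - 1)).1 = v + dir r := by
      show v + dir (r - 1 + 1) = _
      rw [fin4_1]
    apply Complex.ext <;> simp only [Fjord.em, h1, Prod.fst_add, Prod.snd_add] <;> push_cast <;>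
      ring
  rw [h]
  refine ⟨3 / 8, 5 / 8, by norm_num, by norm_num, by norm_num, ?_⟩
  apply Complex.ext <;> simp only [qe, Complex.add_re, Complex.add_im, Complex.smul_re,
    Complex.smul_im, pt_re, pt_im, smul_eq_mul] <;> ring

theorem run_zero_of {m : ℕ} (hm : m ≤ len p k A) (h : run p k A m = cs p) : m = 0 := by
  rw [← run_zero (p := p) (k := k) (A := A)] at h
  exact run_inj' hp hS hk hA _ hm _ (Nat.zero_le _) h

omit hp hS hk hA in
theorem next_ne (ω : Set (Sym2 (ℤ × ℤ))) (r : Fin 4) : next ω (v, r) ≠ (v, r - 1) := by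
  intro h
  have key : ∀ r : Fin 4, r + 1 ≠ r - 1 := by decide
  rcases next_step ω (v, r) with ⟨-, g, -⟩ | ⟨-, g, -⟩
  · rw [g] at h
    have h2 : (adv (v, r)).1 = v := congrArg Prod.fst h
    exact adv_ne (v, r) h2
  · rw [g] at h
    exact key r (congrArg Prod.snd h)

omit hk hA in
theorem start_face {r : Fin 4} (hc : cs p = (v, r)) : face v (r + 1) ∈ S ∧ face v r ∉ S := by
  have h := (enc_out hp hS (i := -1)).1
  have h' := fc_cs hp hS
  rw [hc] at h'
  refine ⟨?_, h'⟩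
  have h2 : (p (-1), ro p (-1) - 1) = (v, r) := hc
  rw [Prod.mk.injEq] at h2
  rw [← h2.1, ← h2.2, fin4_1]
  exact h

/-- The side before the start is free. -/
theorem start_side (hM : M ≤ len p k A) {r : Fin 4} (hc : cs p = (v, r)) {l : ℕ} (hl : l < M)
    (h : (run p k A l = (v, r - 1) ∧ run p k A (l + 1) = (v, r)) ∨
      (run p k A (l + 1) = (v, r - 1) ∧ run p k A l = (v, r))) : False := by
  rcases h with ⟨h1, h2⟩ | ⟨h1, h2⟩
  · rw [← hc] at h2
    have := run_zero_of hp hS hk hA (by omega) h2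
    omega
  · rw [run_succ, h2] at h1
    exact next_ne _ r h1

/-- From the free edge behind the start to the first vertex. -/
theorem start_V2 (hδ : 0 < δ) (hM : M ≤ len p k A) {r : Fin 4} (hc : cs p = (v, r)) :
    segment ℝ (qe v r) (pt v) ⊆ sD1 p k S A δ M := by
  have hf1 : face v (r + 1) ∈ S := (start_face hp hS hc).1
  have hsub : segment ℝ (qe v r) (pt v) ⊆ segment ℝ (pt v) (Fjord.em (v, r - 1)) :=
    (convex_segment _ _).segment_subset (qe_seg r) (left_mem_segment _ _ _)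
  have hq1 := xi_qe (v := v) r
  have hqf : qe v r ∈ EF (face v (r + 1)) := by
    rw [ef_iff, et_rot, xi_rot, hq1.1, hq1.2]
    norm_num
  intro u hu
  refine ⟨seg_O1 hf1 hqf (pt_EF _ _) hu, fun hz => ?_⟩
  have hu' := hsub hu
  rcases (obs (S := S) hp hS hA hδ hM).cov _ hz with ⟨x, y', b1, b2⟩ | ⟨d, b1, b2⟩ | ⟨d, b1, b2⟩
  · obtain ⟨e, he⟩ := (obs (S := S) hp hS hA hδ hM).step x y' b1
    have hr : rot (v, r - 1) = (v, r) := by
      show (v, r - 1 + 1) = _
      rw [fin4_1]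
    have h5 := pB_on (c := (v, r - 1)) he hu' b2
    rw [hr] at h5
    obtain ⟨l, hl, rfl, rfl⟩ := b1
    exact start_side hp hS hk hA hM hc hl h5
  · exact pB_bt (c := (v, r - 1)) hu' b2
  · rw [b2] at hu'
    exact pB_bt (c := (v, r - 1)) hu' (bt_self d)

theorem start_V (hδ : 0 < δ) (hM : M ≤ len p k A) (hw : w ∈ sD1 p k S A δ M) {r : Fin 4}
    (hc : cs p = (v, r)) (h3 : face v (r - 1) ∉ S) (x1 : 1 / 4 ≤ xi (v, r) w)
    (x2 : xi (v, r) w < 3 / 8) (x3 : -(1 / 4) ≤ et (v, r) w) (x4 : et (v, r) w ≤ xi (v, r) w) :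
    ∃ a, Good S a ∧ a ≠ .O (cs p) ∧
      JoinedIn (sD1 p k S A δ M ∩ closedBall w 2) w (ps a) := by
  obtain ⟨hf1, hf0⟩ := start_face hp hS hc
  have hq1 := xi_qe (v := v) r
  have hp1 := xi_pt (v := v) r
  have hlt : et (v, r) w < xi (v, r) w := by
    refine lt_of_le_of_ne x4 fun h => hw.2 (bt_zM hδ ?_)
    rw [hc, eq_cpt h.symm]
    exact cpt_bt x1 x2.le
  have hwf : w ∈ EF (face v (r + 1)) := by
    rw [ef_iff, et_rot, xi_rot]
    refine ⟨⟨by linarith, by linarith⟩, by linarith, by linarith⟩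
  have hqf : qe v r ∈ EF (face v (r + 1)) := by
    rw [ef_iff, et_rot, xi_rot, hq1.1, hq1.2]
    norm_num
  have s1 : segment ℝ w (qe v r) ⊆ sD1 p k S A δ M := by
    refine lc_side hp hS hk hA hδ hM hw r hf0 h3 x1 (by linarith) x3 (by linarith)
      (by rw [hq1.1]; norm_num) (by rw [hq1.1]; norm_num) (by rw [hq1.2]; norm_num)
      (by rw [hq1.2]; norm_num) ?_ hf1 hwf hqf
    intro u s hs0 hs1 e1 e2 hb
    rw [hc] at hb
    obtain ⟨b1, -, -⟩ := bt_xi hb
    rw [hq1.1] at e1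
    rw [hq1.2] at e2
    nlinarith
  have c1 := xi_bd (v := v) (a := qe v r) (b := w) (t := 1) r
    (by rw [hq1.1, abs_le]; constructor <;> linarith)
    (by rw [hq1.2, abs_le]; constructor <;> linarith)
  have c2 := xi_bd (v := v) (a := pt v) (b := w) (t := 1) r
    (by rw [hp1.1, abs_le]; constructor <;> linarith)
    (by rw [hp1.2, abs_le]; constructor <;> linarith)
  refine ⟨.V v, mem_verts.2 ⟨_, hf1⟩, (by simp), ?_⟩
  refine (JoinedIn.of_segment_subset (subset_inter s1 (seg_ball c1.1 c1.2))).trans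
    (JoinedIn.of_segment_subset (subset_inter (start_V2 hp hS hk hA hδ hM hc) ?_))
  exact (convex_closedBall _ _).segment_subset (mem_closedBall.2 (near_dist c1.1 c1.2))
    (mem_closedBall.2 (near_dist c2.1 c2.2))

omit hp hS hk hA in
/-- One segment. -/
theorem nn_one' {a : Node} {y : ℂ} (ha : Good S a) (hne : a ≠ .O (cs p)) (hy : y = ps a)
    (h1 : |y.re - w.re| ≤ 1) (h2 : |y.im - w.im| ≤ 1) (h3 : segment ℝ w y ⊆ sD1 p k S A δ M) :
    ∃ a, Good S a ∧ a ≠ .O (cs p) ∧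
      JoinedIn (sD1 p k S A δ M ∩ closedBall w 2) w (ps a) := by
  subst hy
  exact ⟨a, ha, hne, JoinedIn.of_segment_subset (subset_inter h3 (seg_ball h1 h2))⟩

/-- A point in the cell of an edge outside of the domain. -/
theorem out_edge (hδ : 0 < δ) (hM : M ≤ len p k A) (hw : w ∈ sD1 p k S A δ M) {r t : Fin 4}
    (h1 : face v r ∉ S) (h2 : face v (r - 1) ∉ S) (hf : face v t ∈ S) (hwf : w ∈ EF (face v t))
    (x1 : 1 / 4 ≤ xi (v, r) w) (x2 : xi (v, r) w < 3 / 8) (x3 : -(1 / 4) ≤ et (v, r) w)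
    (x4 : et (v, r) w ≤ 1 / 4) :
    ∃ a, Good S a ∧ a ≠ .O (cs p) ∧
      JoinedIn (sD1 p k S A δ M ∩ closedBall w 2) w (ps a) := by
  by_cases hc : cs p = (v, r)
  · exact start_V hp hS hk hA hδ hM hw hc h2 x1 x2 x3 (x4.trans x1)
  have hy := xi_cpt (θ := 5 / 16) (c := (v, r))
  have c1 := xi_bd (v := v) (a := cpt (5 / 16) (v, r)) (b := w) (t := 1) r
    (by rw [hy.1, abs_le]; constructor <;> linarith)
    (by rw [hy.2, abs_le]; constructor <;> linarith)
  refine nn_one' (a := .O (v, r)) ⟨mem_verts.2 ⟨t, hf⟩, h1⟩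
    (fun h => hc (by injection h with h; exact h.symm)) rfl c1.1 c1.2 ?_
  refine lc_side hp hS hk hA hδ hM hw r h1 h2 x1 (by linarith) x3 (by linarith)
      (by show _ < xi (v, r) (cpt (5 / 16) (v, r)); rw [hy.1]; norm_num)
      (by show xi (v, r) (cpt (5 / 16) (v, r)) < _; rw [hy.1]; norm_num)
      (by show _ < et (v, r) (cpt (5 / 16) (v, r)); rw [hy.2]; norm_num)
      (by show et (v, r) (cpt (5 / 16) (v, r)) < _; rw [hy.2]; norm_num) ?_ hf hwf
      (cpt_EF (by norm_num) (by norm_num) (v, r) t)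
  intro u s hs0 hs1 e1 e2 hb
  change _ = _ + s * (xi (v, r) (cpt (5 / 16) (v, r)) - _) at e1
  change _ = _ + s * (et (v, r) (cpt (5 / 16) (v, r)) - _) at e2
  rw [hy.1] at e1
  rw [hy.2] at e2
  refine hc (bt_loc r hb ?_ ?_ ?_ ?_)
  · rw [e1]; exact cnv_lt hs0 hs1 x1 (by norm_num)
  · rw [e1]; exact cnv_gt hs0 hs1 x2.le (by norm_num)
  · rw [e2]; exact cnv_lt hs0 hs1 x3 (by norm_num)
  · rw [e2]; exact cnv_gt hs0 hs1 (by linarith) (by norm_num)

omit hp hS hk hA in
theorem em_near (c : Medial) : |(pt c.1).re - (Fjord.em c).re| ≤ 1 / 2 ∧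
    |(pt c.1).im - (Fjord.em c).im| ≤ 1 / 2 ∧ |(ctr (fc c)).re - (Fjord.em c).re| ≤ 1 / 2 ∧
    |(ctr (fc c)).im - (Fjord.em c).im| ≤ 1 / 2 := by
  obtain ⟨v, r⟩ := c
  revert r
  refine forall4 ?_ ?_ ?_ ?_ <;>
    simp only [Fjord.em, adv_0, adv_1, adv_2, adv_3, pt_re, pt_im, ctr, fc_0, fc_1, fc_2,
      fc_3] <;> push_cast <;> refine ⟨?_, ?_, ?_, ?_⟩ <;> rw [abs_le] <;> constructor <;>
      linarith

/-- The midpoint of an edge is joined to a node. -/
theorem em_node' (hδ : 0 < δ) (hM : M ≤ len p k A) {c : Medial} (he : ahead c ∈ edges S) :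
    ∃ a, Good S a ∧ a ≠ .O (cs p) ∧ segment ℝ (Fjord.em c) (ps a) ⊆ sD1 p k S A δ M ∧
      |(ps a).re - (Fjord.em c).re| ≤ 1 / 2 ∧ |(ps a).im - (Fjord.em c).im| ≤ 1 / 2 := by
  have hO := obs (S := S) hp hS hA hδ hM
  have hv : c.1 ∈ verts S := (verts_of_edge (r := c.2 + 1) he).1
  have hem := em_near
  by_cases ho : ahead c ∈ wiredOpen p k A
  · refine ⟨.V c.1, hv, (by simp), ?_, (hem c).1, (hem c).2.1⟩
    show segment ℝ (Fjord.em c) (pt c.1) ⊆ _
    rw [segment_symm]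
    exact sB hO he (fun hh => e_closed hh (Or.inl ⟨rfl, rfl⟩) ho)
      (fun hh => e_closed hh (Or.inr ⟨rfl, rfl⟩) ho)
  · obtain ⟨f, hf, hf'⟩ := face_of_edge he
    have key : ∃ d, ahead d = ahead c ∧ fc d = f := by
      rcases hf' with rfl | rfl
      · exact ⟨c, rfl, rfl⟩
      · exact ⟨par c, ahead_par c, by
          show face (c.1 + dir (c.2 + 1)) (c.2 + 2) = _
          rw [show c.2 + 2 = c.2 + 1 + 1 by
            generalize c.2 = r
            revert r
            decide, face_left]⟩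
    obtain ⟨d, hd1, hd2⟩ := key
    have e1 : Fjord.em d = Fjord.em c := em_congr hd1
    have h5 := hem d
    rw [e1, hd2] at h5
    refine ⟨.F f, hf, (by simp), ?_, h5.2.2.1, h5.2.2.2⟩
    show segment ℝ (Fjord.em c) (ctr f) ⊆ _
    rw [← e1, ← hd2]
    refine sA hO (by rw [hd2]; exact hf) (fun hh => ?_) (fun hh => ?_)
    · have := e_open hh (Or.inl ⟨rfl, rfl⟩)
      rw [hd1] at this
      exact ho this
    · have := e_open hh (Or.inr ⟨rfl, rfl⟩)
      rw [hd1] at this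
      exact ho this

/-- Through the midpoint of an edge. -/
theorem nn_two' (hδ : 0 < δ) (hM : M ≤ len p k A) (c : Medial) (he : ahead c ∈ edges S)
    (h1 : |(Fjord.em c).re - w.re| ≤ 1 / 2) (h2 : |(Fjord.em c).im - w.im| ≤ 1 / 2)
    (h3 : segment ℝ w (Fjord.em c) ⊆ sD1 p k S A δ M) :
    ∃ a, Good S a ∧ a ≠ .O (cs p) ∧
      JoinedIn (sD1 p k S A δ M ∩ closedBall w 2) w (ps a) := by
  obtain ⟨a, ha, ha', g1, g2, g3⟩ := em_node' hp hS hk hA hδ hM he
  refine ⟨a, ha, ha', (JoinedIn.of_segment_subset (subset_inter h3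
    (seg_ball (h1.trans (by norm_num)) (h2.trans (by norm_num))))).trans
    (JoinedIn.of_segment_subset (subset_inter g1 ?_))⟩
  refine (convex_closedBall _ _).segment_subset ?_ ?_
  · exact mem_closedBall.2 (near_dist (h1.trans (by norm_num)) (h2.trans (by norm_num)))
  · refine mem_closedBall.2 (near_dist ?_ ?_)
    · have := abs_add_le ((ps a).re - (Fjord.em c).re) ((Fjord.em c).re - w.re)
      rw [sub_add_sub_cancel] at this
      linarith
    · have := abs_add_le ((ps a).im - (Fjord.em c).im) ((Fjord.em c).im - w.im)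
      rw [sub_add_sub_cancel] at this
      linarith

omit hp hS hk hA in
theorem face_of_near {a b : ℤ × ℤ} (h1 : a.1 = b.1 ∨ a.1 = b.1 - 1)
    (h2 : a.2 = b.2 ∨ a.2 = b.2 - 1) : ∃ r, face b r = a := by
  rcases h1 with h1 | h1 <;> rcases h2 with h2 | h2
  · exact ⟨0, by rw [face0]; exact Prod.ext h1.symm h2.symm⟩
  · exact ⟨3, by rw [face3]; exact Prod.ext h1.symm h2.symm⟩
  · exact ⟨1, by rw [face1]; exact Prod.ext h1.symm h2.symm⟩
  · exact ⟨2, by rw [face2]; exact Prod.ext h1.symm h2.symm⟩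

omit hp hS hk hA in
/-- A face near a vertex. -/
theorem face_near {f : ℤ × ℤ} (hf : w ∈ EF f) (h1 : |w.re - v.1| < 5 / 8)
    (h2 : |w.im - v.2| < 5 / 8) : ∃ t, face v t = f := by
  obtain ⟨⟨f1, f2⟩, f3, f4⟩ := hf
  rw [abs_lt] at h1 h2
  have a1 : f.1 < v.1 + 1 := by
    have : (f.1 : ℝ) < v.1 + 1 := by linarith
    exact_mod_cast this
  have a2 : v.1 < f.1 + 2 := by
    have : (v.1 : ℝ) < f.1 + 2 := by linarith
    exact_mod_cast this
  have a3 : f.2 < v.2 + 1 := by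
    have : (f.2 : ℝ) < v.2 + 1 := by linarith
    exact_mod_cast this
  have a4 : v.2 < f.2 + 2 := by
    have : (v.2 : ℝ) < f.2 + 2 := by linarith
    exact_mod_cast this
  exact face_of_near (by omega) (by omega)

/-- The cell of a vertex. -/
theorem n0_x (hδ : 0 < δ) (hM : M ≤ len p k A) (hw : w ∈ sD1 p k S A δ M)
    {f : ℤ × ℤ} (hf : f ∈ S) (hwf : w ∈ EF f) {a b : ℤ} (hc : Cc (2 * a - 1) (2 * b - 1) w) :
    ∃ a, Good S a ∧ a ≠ .O (cs p) ∧
      JoinedIn (sD1 p k S A δ M ∩ closedBall w 2) w (ps a) := by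
  obtain ⟨⟨m1, m2⟩, l1, l2⟩ := id hc
  push_cast at m1 m2 l1 l2
  obtain ⟨r, hr⟩ := face_near (v := (a, b)) hwf
    (by rw [abs_lt]; simp only; constructor <;> linarith)
    (by rw [abs_lt]; simp only; constructor <;> linarith)
  have hv : (a, b) ∈ verts S := mem_verts.2 ⟨r, by rw [hr]; exact hf⟩
  have hyf : pt (a, b) ∈ EF f := by rw [← hr]; exact pt_EF _ _
  have e1 : |(pt (a, b)).re - w.re| ≤ 1 := by
    simp only [pt]; rw [abs_le]; constructor <;> linarith
  have e2 : |(pt (a, b)).im - w.im| ≤ 1 := by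
    simp only [pt]; rw [abs_le]; constructor <;> linarith
  refine nn_one' (a := .V (a, b)) hv (by simp) rfl e1 e2
    (cell_seg' hp hS hk hA hδ hM hw hc ?_ (fun u _ _ hu hb => ?_) hf hwf hyf)
  · simp only [Co, ps, pt]
    push_cast
    refine ⟨⟨?_, ?_⟩, ?_, ?_⟩ <;> linarith
  · have := (bt_co hb hu).1
    omega

/-- The cell of a horizontal edge. -/
theorem n0_h (hδ : 0 < δ) (hM : M ≤ len p k A) (hw : w ∈ sD1 p k S A δ M)
    {f : ℤ × ℤ} (hf : f ∈ S) (hwf : w ∈ EF f) {a b : ℤ} (hc : Cc (2 * a) (2 * b - 1) w) :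
    ∃ a, Good S a ∧ a ≠ .O (cs p) ∧
      JoinedIn (sD1 p k S A δ M ∩ closedBall w 2) w (ps a) := by
  obtain ⟨⟨m1, m2⟩, l1, l2⟩ := id hc
  push_cast at m1 m2 l1 l2
  obtain ⟨⟨f1, f2⟩, f3, f4⟩ := id hwf
  have hah : ahead ((a, b), 3) = s((a, b), (a, b) + dir 0) := rfl
  have hEm : Fjord.em ((a, b), 3) = ⟨a + 1 / 2, b⟩ := by
    apply Complex.ext <;> simp only [Fjord.em, adv_3, pt_re, pt_im] <;> push_cast <;> ring
  by_cases he : ahead ((a, b), 3) ∈ edges S
  · obtain ⟨g, hg, hg'⟩ := face_of_edge he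
    have hg1 : g = (a, b - 1) ∨ g = (a, b) := by
      rcases hg' with h | h
      · left
        rw [h]
        simp only [face3]
      · right
        rw [h, show (3 : Fin 4) + 1 = 0 from rfl]
        simp only [face0]
    have hwg : w ∈ EF g ∧ (⟨a + 1 / 2, b⟩ : ℂ) ∈ EF g := by
      rcases hg1 with rfl | rfl <;> refine ⟨⟨⟨?_, ?_⟩, ?_, ?_⟩, ⟨?_, ?_⟩, ?_, ?_⟩ <;>
        push_cast <;> linarith
    have e1 : |(Fjord.em ((a, b), 3)).re - w.re| ≤ 1 / 2 := by
      rw [hEm, abs_le]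
      simp only
      constructor <;> linarith
    have e2 : |(Fjord.em ((a, b), 3)).im - w.im| ≤ 1 / 2 := by
      rw [hEm, abs_le]
      simp only
      constructor <;> linarith
    refine nn_two' hp hS hk hA hδ hM _ he e1 e2 (cell_seg' hp hS hk hA hδ hM hw hc ?_
      (fun u _ _ hu hb => ?_) hg hwg.1 (by rw [hEm]; exact hwg.2))
    · rw [hEm]
      simp only [Co]
      push_cast
      refine ⟨⟨?_, ?_⟩, ?_, ?_⟩ <;> linarith
    · have := (bt_co hb hu).2
      omega
  · rw [hah, mem_edges] at he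
    push Not at he
    have he1 : (a, b) ∉ S := by
      have := he.1
      rwa [face0] at this
    have he2 : (a, b - 1) ∉ S := by
      have := he.2
      rw [show (0 : Fin 4) - 1 = 3 from rfl, face3] at this
      exact this
    -- the end next to the point
    have q2 : f.2 = b ∨ f.2 = b - 1 := by
      have : (f.2 : ℝ) < b + 1 := by linarith
      have : f.2 < b + 1 := by exact_mod_cast this
      have : (b : ℝ) < f.2 + 2 := by linarith
      have : b < f.2 + 2 := by exact_mod_cast this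
      omega
    have q1 : f.1 = a + 1 ∨ f.1 = a - 1 := by
      have : (f.1 : ℝ) < a + 2 := by linarith
      have g1 : f.1 < a + 2 := by exact_mod_cast this
      have : (a : ℝ) < f.1 + 2 := by linarith
      have g2 : a < f.1 + 2 := by exact_mod_cast this
      have : f.1 ≠ a := by
        intro h
        rcases q2 with h' | h'
        · exact he1 (by rw [← h, ← h']; exact hf)
        · exact he2 (by rw [← h, ← h']; exact hf)
      omega
    rcases q1 with q1 | q1
    · -- the vertex on the right, the edge goes to the left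
      obtain ⟨t, ht⟩ : ∃ t, face (a + 1, b) t = f :=
        face_of_near (Or.inl q1) q2
      have q1' : (f.1 : ℝ) = a + 1 := by rw [q1]; push_cast; ring
      refine out_edge hp hS hk hA hδ hM hw (v := (a + 1, b)) (r := 2) (t := t) ?_ ?_
        (by rw [ht]; exact hf) (by rw [ht]; exact hwf) ?_ ?_ ?_ ?_
      · rw [face2]
        simp only [add_sub_cancel_right]
        exact he2
      · rw [show (2 : Fin 4) - 1 = 1 from rfl, face1]
        simp only [add_sub_cancel_right]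
        exact he1
      · rw [xi_2]; push_cast; linarith
      · rw [xi_2]; push_cast; linarith
      · rw [et_2]; linarith
      · rw [et_2]; linarith
    · obtain ⟨t, ht⟩ : ∃ t, face (a, b) t = f :=
        face_of_near (Or.inr q1) q2
      have q1' : (f.1 : ℝ) = a - 1 := by rw [q1]; push_cast; ring
      refine out_edge hp hS hk hA hδ hM hw (v := (a, b)) (r := 0) (t := t) ?_ ?_
        (by rw [ht]; exact hf) (by rw [ht]; exact hwf) ?_ ?_ ?_ ?_
      · rw [face0]
        exact he1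
      · rw [show (0 : Fin 4) - 1 = 3 from rfl, face3]
        exact he2
      · rw [xi_0]; linarith
      · rw [xi_0]; linarith
      · rw [et_0]; linarith
      · rw [et_0]; linarith

/-- The cell of a vertical edge. -/
theorem n0_v (hδ : 0 < δ) (hM : M ≤ len p k A) (hw : w ∈ sD1 p k S A δ M)
    {f : ℤ × ℤ} (hf : f ∈ S) (hwf : w ∈ EF f) {a b : ℤ} (hc : Cc (2 * a - 1) (2 * b) w) :
    ∃ a, Good S a ∧ a ≠ .O (cs p) ∧
      JoinedIn (sD1 p k S A δ M ∩ closedBall w 2) w (ps a) := by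
  obtain ⟨⟨m1, m2⟩, l1, l2⟩ := id hc
  push_cast at m1 m2 l1 l2
  obtain ⟨⟨f1, f2⟩, f3, f4⟩ := id hwf
  have hah : ahead ((a, b), 0) = s((a, b), (a, b) + dir 1) := rfl
  have hEm : Fjord.em ((a, b), 0) = ⟨a, b + 1 / 2⟩ := by
    apply Complex.ext <;> simp only [Fjord.em, adv_0, pt_re, pt_im] <;> push_cast <;> ring
  by_cases he : ahead ((a, b), 0) ∈ edges S
  · obtain ⟨g, hg, hg'⟩ := face_of_edge he
    have hg1 : g = (a, b) ∨ g = (a - 1, b) := by
      rcases hg' with h | h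
      · left
        rw [h]
        simp only [face0]
      · right
        rw [h, show (0 : Fin 4) + 1 = 1 from rfl]
        simp only [face1]
    have hwg : w ∈ EF g ∧ (⟨a, b + 1 / 2⟩ : ℂ) ∈ EF g := by
      rcases hg1 with rfl | rfl <;> refine ⟨⟨⟨?_, ?_⟩, ?_, ?_⟩, ⟨?_, ?_⟩, ?_, ?_⟩ <;>
        push_cast <;> linarith
    have e1 : |(Fjord.em ((a, b), 0)).re - w.re| ≤ 1 / 2 := by
      rw [hEm, abs_le]
      simp only
      constructor <;> linarith
    have e2 : |(Fjord.em ((a, b), 0)).im - w.im| ≤ 1 / 2 := by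
      rw [hEm, abs_le]
      simp only
      constructor <;> linarith
    refine nn_two' hp hS hk hA hδ hM _ he e1 e2 (cell_seg' hp hS hk hA hδ hM hw hc ?_
      (fun u _ _ hu hb => ?_) hg hwg.1 (by rw [hEm]; exact hwg.2))
    · rw [hEm]
      simp only [Co]
      push_cast
      refine ⟨⟨?_, ?_⟩, ?_, ?_⟩ <;> linarith
    · have := (bt_co hb hu).1
      omega
  · rw [hah, mem_edges] at he
    push Not at he
    have he1 : (a - 1, b) ∉ S := by
      have := he.1
      rwa [face1] at this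
    have he2 : (a, b) ∉ S := by
      have := he.2
      rw [show (1 : Fin 4) - 1 = 0 from rfl, face0] at this
      exact this
    have q1 : f.1 = a ∨ f.1 = a - 1 := by
      have : (f.1 : ℝ) < a + 1 := by linarith
      have : f.1 < a + 1 := by exact_mod_cast this
      have : (a : ℝ) < f.1 + 2 := by linarith
      have : a < f.1 + 2 := by exact_mod_cast this
      omega
    have q2 : f.2 = b + 1 ∨ f.2 = b - 1 := by
      have : (f.2 : ℝ) < b + 2 := by linarith
      have g1 : f.2 < b + 2 := by exact_mod_cast this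
      have : (b : ℝ) < f.2 + 2 := by linarith
      have g2 : b < f.2 + 2 := by exact_mod_cast this
      have : f.2 ≠ b := by
        intro h
        rcases q1 with h' | h'
        · exact he2 (by rw [← h, ← h']; exact hf)
        · exact he1 (by rw [← h, ← h']; exact hf)
      omega
    rcases q2 with q2 | q2
    · -- the vertex above, the edge goes down
      obtain ⟨t, ht⟩ : ∃ t, face (a, b + 1) t = f :=
        face_of_near q1 (Or.inl q2)
      have q2' : (f.2 : ℝ) = b + 1 := by rw [q2]; push_cast; ring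
      refine out_edge hp hS hk hA hδ hM hw (v := (a, b + 1)) (r := 3) (t := t) ?_ ?_
        (by rw [ht]; exact hf) (by rw [ht]; exact hwf) ?_ ?_ ?_ ?_
      · rw [face3]
        simp only [add_sub_cancel_right]
        exact he2
      · rw [show (3 : Fin 4) - 1 = 2 from rfl, face2]
        simp only [add_sub_cancel_right]
        exact he1
      · rw [xi_3]; push_cast; linarith
      · rw [xi_3]; push_cast; linarith
      · rw [et_3]; linarith
      · rw [et_3]; linarith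
    · obtain ⟨t, ht⟩ : ∃ t, face (a, b) t = f :=
        face_of_near q1 (Or.inr q2)
      have q2' : (f.2 : ℝ) = b - 1 := by rw [q2]; push_cast; ring
      refine out_edge hp hS hk hA hδ hM hw (v := (a, b)) (r := 1) (t := t) ?_ ?_
        (by rw [ht]; exact hf) (by rw [ht]; exact hwf) ?_ ?_ ?_ ?_
      · rw [face1]
        exact he1
      · rw [show (1 : Fin 4) - 1 = 0 from rfl, face0]
        exact he2
      · rw [xi_1]; linarith
      · rw [xi_1]; linarith
      · rw [et_1]; linarith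
      · rw [et_1]; linarith

omit hp hS hk hA in
/-- The cell of a face in local coordinates. -/
theorem cc_iff (r : Fin 4) : Cc (2 * (face v r).1) (2 * (face v r).2) u ↔
    (1 / 4 ≤ xi (v, r) u ∧ xi (v, r) u ≤ 3 / 4) ∧ 1 / 4 ≤ et (v, r) u ∧ et (v, r) u ≤ 3 / 4 := by
  revert r
  refine forall4 ?_ ?_ ?_ ?_ <;>
    simp only [Cc, face0, face1, face2, face3, xi_0, xi_1, xi_2, xi_3, et_0, et_1,
      et_2, et_3] <;> push_cast <;>
    refine ⟨fun h => ?_, fun h => ?_⟩ <;> obtain ⟨⟨h1, h2⟩, h3, h4⟩ := h <;>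
    refine ⟨⟨?_, ?_⟩, ?_, ?_⟩ <;> linarith

omit hp hS hk hA in
theorem co_iff (r : Fin 4) : Co (2 * (face v r).1) (2 * (face v r).2) u ↔
    (1 / 4 < xi (v, r) u ∧ xi (v, r) u < 3 / 4) ∧ 1 / 4 < et (v, r) u ∧ et (v, r) u < 3 / 4 := by
  revert r
  refine forall4 ?_ ?_ ?_ ?_ <;>
    simp only [Co, face0, face1, face2, face3, xi_0, xi_1, xi_2, xi_3, et_0, et_1,
      et_2, et_3] <;> push_cast <;>
    refine ⟨fun h => ?_, fun h => ?_⟩ <;> obtain ⟨⟨h1, h2⟩, h3, h4⟩ := h <;>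
    refine ⟨⟨?_, ?_⟩, ?_, ?_⟩ <;> linarith

omit hp hS hk hA in
theorem xi_adv {θ : ℝ} (r : Fin 4) : xi (v, r) (cpt θ (adv (v, r))) = θ ∧
    et (v, r) (cpt θ (adv (v, r))) = 1 - θ := by
  revert r
  refine forall4 ?_ ?_ ?_ ?_ <;>
    simp only [adv_0, adv_1, adv_2, adv_3, cpt_0, cpt_1, cpt_2, cpt_3, xi_0, xi_1, xi_2, xi_3,
      et_0, et_1, et_2, et_3] <;> push_cast <;> constructor <;> ring

omit hp hS hk hA in
theorem xi_nxt {θ : ℝ} (r : Fin 4) : xi (v, r) (cpt θ (v + dir r, r + 1)) = 1 - θ ∧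
    et (v, r) (cpt θ (v + dir r, r + 1)) = θ := by
  have a10 : (0 : Fin 4) + 1 = 1 := rfl
  have a21 : (1 : Fin 4) + 1 = 2 := rfl
  have a32 : (2 : Fin 4) + 1 = 3 := rfl
  have a03 : (3 : Fin 4) + 1 = 0 := rfl
  revert r
  refine forall4 ?_ ?_ ?_ ?_ <;>
    simp only [a10, a21, a32, a03, cpt_0, cpt_1, cpt_2, cpt_3, xi_0, xi_1, xi_2, xi_3,
      et_0, et_1, et_2, et_3, dir0, dir1, dir2, dir3, Prod.fst_add, Prod.snd_add] <;>
    push_cast <;> constructor <;> ring

/-- The cell of a face of the domain. -/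
theorem n0_f (hδ : 0 < δ) (hM : M ≤ len p k A) (hw : w ∈ sD1 p k S A δ M) {g : ℤ × ℤ}
    (hg : g ∈ S) (hc : Cc (2 * g.1) (2 * g.2) w) :
    ∃ a, Good S a ∧ a ≠ .O (cs p) ∧
      JoinedIn (sD1 p k S A δ M ∩ closedBall w 2) w (ps a) := by
  obtain ⟨⟨m1, m2⟩, l1, l2⟩ := id hc
  push_cast at m1 m2 l1 l2
  have e1 : |(ctr g).re - w.re| ≤ 1 := by
    simp only [ctr]; rw [abs_le]; constructor <;> linarith
  have e2 : |(ctr g).im - w.im| ≤ 1 := by
    simp only [ctr]; rw [abs_le]; constructor <;> linarith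
  refine nn_one' (a := .F g) hg (by simp) rfl e1 e2 (cell_seg' hp hS hk hA hδ hM hw hc ?_
    (fun u _ _ hu hb => ?_) hg ⟨⟨by linarith, by linarith⟩, by linarith, by linarith⟩ (ctr_EF _))
  · simp only [Co, ps, ctr]
    push_cast
    refine ⟨⟨?_, ?_⟩, ?_, ?_⟩ <;> linarith
  · obtain ⟨h1, h2⟩ := bt_co hb hu
    have h3 : g = fc (cs p) := Prod.ext (by omega) (by omega)
    exact fc_cs hp hS (by rw [← h3]; exact hg)

/-- A node at the dart `d` of the face outside. -/
theorem fo_dart (hδ : 0 < δ) (hM : M ≤ len p k A) (hw : w ∈ sD1 p k S A δ M) {d : Medial}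
    (hd : d ≠ cs p) (hc : Cc (2 * (fc d).1) (2 * (fc d).2) w) (hg : fc d ∉ S) {f : ℤ × ℤ}
    (hf : f ∈ S) (hwf : w ∈ EF f) (ht : ∃ t, face d.1 t = f)
    (hcs : ∀ u ∈ segment ℝ w (cpt (5 / 16) d), u ≠ w → Co (2 * (fc d).1) (2 * (fc d).2) u →
      u ∉ Bt (cs p)) :
    ∃ a, Good S a ∧ a ≠ .O (cs p) ∧
      JoinedIn (sD1 p k S A δ M ∩ closedBall w 2) w (ps a) := by
  obtain ⟨t, ht⟩ := ht
  obtain ⟨v, r⟩ := d
  have hy := xi_cpt (θ := 5 / 16) (c := (v, r))
  have h1 := (cc_iff r).1 hc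
  have c1 := xi_bd (v := v) (a := cpt (5 / 16) (v, r)) (b := w) (t := 1) r
    (by rw [hy.1, abs_le]; constructor <;> linarith [h1.1.1, h1.1.2])
    (by rw [hy.2, abs_le]; constructor <;> linarith [h1.2.1, h1.2.2])
  refine nn_one' (a := .O (v, r)) ⟨mem_verts.2 ⟨t, by rw [ht]; exact hf⟩, hg⟩
    (fun h => hd (by injection h)) rfl c1.1 c1.2 ?_
  refine cell_seg' hp hS hk hA hδ hM hw hc ?_ hcs hf hwf ?_
  · refine (co_iff r).2 ?_
    change (1 / 4 < xi (v, r) (cpt (5 / 16) (v, r)) ∧ xi (v, r) (cpt (5 / 16) (v, r)) < 3 / 4) ∧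
      1 / 4 < et (v, r) (cpt (5 / 16) (v, r)) ∧ et (v, r) (cpt (5 / 16) (v, r)) < 3 / 4
    rw [hy.1, hy.2]
    norm_num
  · show cpt (5 / 16) (v, r) ∈ EF f
    rw [← ht]
    exact cpt_EF (by norm_num) (by norm_num) (v, r) t

/-- The cell of the face at the start. -/
theorem n0_s (hδ : 0 < δ) (hM : M ≤ len p k A) (hw : w ∈ sD1 p k S A δ M) {r t : Fin 4}
    (hc : cs p = (v, r)) (hcc : Cc (2 * (face v r).1) (2 * (face v r).2) w)
    (hf : face v t ∈ S) (hwf : w ∈ EF (face v t)) :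
    ∃ a, Good S a ∧ a ≠ .O (cs p) ∧
      JoinedIn (sD1 p k S A δ M ∩ closedBall w 2) w (ps a) := by
  obtain ⟨hf1, hf0⟩ := start_face hp hS hc
  obtain ⟨⟨x1, x2⟩, x3, x4⟩ := (cc_iff r).1 hcc
  -- the face is one of the three others
  have e : ∀ s r : Fin 4, s = r ∨ s = r + 1 ∨ s = r + 1 + 1 ∨ s = r + 1 + 1 + 1 := by decide
  have em1 : ∀ r : Fin 4, r + 1 + 1 + 1 = r - 1 := by decide
  have key : xi (v, r) w < 3 / 8 ∨ (et (v, r) w < 3 / 8 ∧ t = r - 1) := by
    rcases e t r with rfl | rfl | rfl | rfl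
    · exact absurd hf hf0
    · rw [ef_iff, et_rot] at hwf
      left
      linarith [hwf.2.1]
    · rw [ef_iff, xi_rot, et_rot] at hwf
      left
      linarith [hwf.1.1]
    · rw [ef_iff, xi_rot, et_rot, et_rot, xi_rot] at hwf
      right
      exact ⟨by linarith [hwf.1.1], em1 r⟩
  rcases lt_trichotomy (xi (v, r) w) (et (v, r) w) with hlt | heq | hgt
  · -- above the diagonal
    have hx : xi (v, r) w < 3 / 8 := by
      rcases key with h | h
      · exact h
      · linarith [h.1]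
    have hwf1 : w ∈ EF (face v (r + 1)) := by
      rw [ef_iff, et_rot, xi_rot]
      refine ⟨⟨by linarith, by linarith⟩, by linarith, by linarith⟩
    have hfa : fc (adv (v, r)) = face v r := fc_advI (v, r)
    have hya := xi_adv (v := v) (θ := 5 / 16) r
    refine fo_dart hp hS hk hA hδ hM hw (d := adv (v, r)) ?_ (by rw [hfa]; exact hcc)
      (by rw [hfa]; exact hf0) hf1 hwf1 ?_ ?_
    · rw [hc]
      exact fun h => adv_ne (v, r) (congrArg Prod.fst h)
    · exact ⟨r + 1 + 1, face_left v (r + 1)⟩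
    · intro u hu hne _ hb
      obtain ⟨s, s0, s1, e1, e2⟩ := seg_pos hu hne
      have a1 := xi_aff (c := (v, r)) e1 e2
      have a2 := et_aff (c := (v, r)) e1 e2
      rw [hya.1] at a1
      rw [hya.2] at a2
      rw [hc] at hb
      have b1 := (bt_xi hb).1
      nlinarith
  · -- on the diagonal
    exfalso
    have hx : xi (v, r) w < 3 / 8 := by
      rcases key with h | h
      · exact h
      · linarith [h.1]
    apply hw.2
    apply bt_zM hδ
    rw [hc, eq_cpt heq]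
    exact cpt_bt x1 hx.le
  · -- below the diagonal
    by_cases h3 : face v (r - 1) ∈ S
    · have hx : et (v, r) w < 3 / 8 := by
        rcases key with h | h
        · linarith
        · exact h.1
      have hwf3 : w ∈ EF (face v (r - 1)) := by
        rw [← em1 r, ef_iff]
        simp only [xi_rot, et_rot]
        refine ⟨⟨by linarith, by linarith⟩, by linarith, by linarith⟩
      have hfa : fc (v + dir r, r + 1) = face v r := face_left v r
      have hya := xi_nxt (v := v) (θ := 5 / 16) r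
      refine fo_dart hp hS hk hA hδ hM hw (d := (v + dir r, r + 1)) ?_ (by rw [hfa]; exact hcc)
        (by rw [hfa]; exact hf0) h3 hwf3 ?_ ?_
      · rw [hc]
        exact fun h => add_dir_ne v r (congrArg Prod.fst h)
      · exact ⟨r + 2, face_right v r⟩
      · intro u hu hne _ hb
        obtain ⟨s, s0, s1, e1, e2⟩ := seg_pos hu hne
        have a1 := xi_aff (c := (v, r)) e1 e2
        have a2 := et_aff (c := (v, r)) e1 e2
        rw [hya.1] at a1
        rw [hya.2] at a2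
        rw [hc] at hb
        have b1 := (bt_xi hb).1
        nlinarith
    · have hx : xi (v, r) w < 3 / 8 := by
        rcases key with h | h
        · exact h
        · rw [← h.2] at h3
          exact absurd hf h3
      exact start_V hp hS hk hA hδ hM hw hc h3 x1 hx (by linarith) hgt.le

/-- The cell of a face outside of the domain. -/
theorem n0_o (hδ : 0 < δ) (hM : M ≤ len p k A) (hw : w ∈ sD1 p k S A δ M) {f g : ℤ × ℤ}
    (hf : f ∈ S) (hwf : w ∈ EF f) (hg : g ∉ S) (hc : Cc (2 * g.1) (2 * g.2) w) :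
    ∃ a, Good S a ∧ a ≠ .O (cs p) ∧
      JoinedIn (sD1 p k S A δ M ∩ closedBall w 2) w (ps a) := by
  obtain ⟨⟨m1, m2⟩, l1, l2⟩ := id hc
  push_cast at m1 m2 l1 l2
  have hwg : w ∈ EF g := ⟨⟨by linarith, by linarith⟩, by linarith, by linarith⟩
  obtain ⟨v, t, r, ht, hr⟩ := ef_meet hwf hwg
  by_cases hs : fc (cs p) = g
  · obtain ⟨v0, r0, hc0⟩ : ∃ v0 r0, cs p = (v0, r0) := ⟨_, _, rfl⟩
    have hg0 : face v0 r0 = g := by
      rw [← hs, hc0]
      rfl
    by_cases ht0 : ∃ t0, face v0 t0 = f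
    · obtain ⟨t0, ht0⟩ := ht0
      exact n0_s hp hS hk hA hδ hM hw hc0 (t := t0) (by rw [hg0]; exact hc) (by rw [ht0]; exact hf)
        (by rw [ht0]; exact hwf)
    · refine fo_dart hp hS hk hA hδ hM hw (d := (v, r)) ?_ ?_ ?_ hf hwf ⟨t, ht⟩ ?_
      · rw [hc0]
        intro h
        rw [Prod.mk.injEq] at h
        exact ht0 ⟨t, by rw [← h.1]; exact ht⟩
      · show Cc (2 * (face v r).1) (2 * (face v r).2) w
        rw [hr]
        exact hc
      · show face v r ∉ S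
        rw [hr]
        exact hg
      · intro u hu hne _ hb
        have huf : u ∈ EF f := by
          refine (convex_EF f).segment_subset hwf ?_ hu
          rw [← ht]
          exact cpt_EF (by norm_num) (by norm_num) (v, r) t
        apply ht0
        rw [hc0] at hb
        have hx := bt_xi hb
        have hq : |u.re - v0.1| < 5 / 8 ∧ |u.im - v0.2| < 5 / 8 := by
          have hp1 := xi_pt (v := v0) r0
          have := xi_bd (v := v0) (a := u) (b := pt v0) (t := 3 / 8) r0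
            (by rw [hp1.1, abs_le]; constructor <;> linarith [hx.1, hx.2.1, hx.2.2])
            (by rw [hp1.2, abs_le]; constructor <;> linarith [hx.1, hx.2.1, hx.2.2])
          rw [pt_re, pt_im] at this
          exact ⟨this.1.trans_lt (by norm_num), this.2.trans_lt (by norm_num)⟩
        exact face_near huf hq.1 hq.2
  · refine fo_dart hp hS hk hA hδ hM hw (d := (v, r)) ?_ ?_ ?_ hf hwf ⟨t, ht⟩ ?_
    · intro h
      apply hs
      rw [← h]
      exact hr
    · show Cc (2 * (face v r).1) (2 * (face v r).2) w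
      rw [hr]
      exact hc
    · show face v r ∉ S
      rw [hr]
      exact hg
    · intro u _ _ hu hb
      obtain ⟨h1, h2⟩ := bt_co hb hu
      have h3 : fc (v, r) = g := hr
      rw [h3] at h1 h2
      exact hs (Prod.ext (by omega) (by omega))

/-- **Every point of the slit domain is joined to a node next to it.** -/
theorem near_node0 (hδ : 0 < δ) (hM : M ≤ len p k A) {w : ℂ} (hw : w ∈ sD1 p k S A δ M) :
    ∃ a, Good S a ∧ a ≠ .O (cs p) ∧
      JoinedIn (sD1 p k S A δ M ∩ closedBall w 2) w (ps a) := by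
  obtain ⟨⟨f, hf, f1, f2, f3, f4⟩, -⟩ := id hw
  have hwf : w ∈ EF f := ⟨⟨f1, f2⟩, f3, f4⟩
  obtain ⟨m, hm⟩ : ∃ m : ℤ, m = ⌊2 * w.re - 1 / 2⌋ := ⟨_, rfl⟩
  obtain ⟨l, hl⟩ : ∃ l : ℤ, l = ⌊2 * w.im - 1 / 2⌋ := ⟨_, rfl⟩
  have m1 : (m : ℝ) ≤ 2 * w.re - 1 / 2 := by rw [hm]; exact Int.floor_le _
  have m2 : 2 * w.re - 1 / 2 < m + 1 := by rw [hm]; exact Int.lt_floor_add_one _
  have l1 : (l : ℝ) ≤ 2 * w.im - 1 / 2 := by rw [hl]; exact Int.floor_le _
  have l2 : 2 * w.im - 1 / 2 < l + 1 := by rw [hl]; exact Int.lt_floor_add_one _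
  clear hm hl
  have hc : Cc m l w := ⟨⟨m1, m2.le⟩, l1, l2.le⟩
  obtain ⟨a, ha | ha⟩ : ∃ a : ℤ, m = 2 * a ∨ m = 2 * a - 1 := ⟨(m + 1) / 2, by omega⟩ <;>
  obtain ⟨b, hb | hb⟩ : ∃ b : ℤ, l = 2 * b ∨ l = 2 * b - 1 := ⟨(l + 1) / 2, by omega⟩ <;>
    subst ha <;> subst hb
  · by_cases hg : (a, b) ∈ S
    · exact n0_f hp hS hk hA hδ hM hw hg hc
    · exact n0_o hp hS hk hA hδ hM hw hf hwf hg hc
  · exact n0_h hp hS hk hA hδ hM hw hf hwf hc
  · exact n0_v hp hS hk hA hδ hM hw hf hwf hc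
  · exact n0_x hp hS hk hA hδ hM hw hf hwf hc

/-- The form with radius `8`. -/
theorem near_node8 (hδ : 0 < δ) (hM : M ≤ len p k A) {w : ℂ} (hw : w ∈ sD1 p k S A δ M) :
    ∃ a, Good S a ∧ a ≠ .O (cs p) ∧
      JoinedIn (sD1 p k S A δ M ∩ closedBall w 8) w (ps a) := by
  obtain ⟨a, h1, h2, h3⟩ := near_node0 hp hS hk hA hδ hM hw
  exact ⟨a, h1, h2, h3.mono (inter_subset_inter_right _ (closedBall_subset_closedBall
    (by norm_num)))⟩

end

end Vale.Agent.P167.H476.N
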