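import Vale.Agent.P167.H476.Q.Gap
import Vale.Agent.P167.H174.CT.Thk2
import Vale.Agent.P167.QG.Arg3

/-!
# P167, general `q`, continuity: the outside of the domain is joined to the boundary of the box

`out_bc`: a corner of the colour `c` of a square off `Dq` is joined, by squares of the box off `Dq`, to
the boundary of the box if all boundary vertices near the box have the colour `c`.
-/

set_option autoImplicit false
set_option linter.unusedVariables false
set_option linter.unusedSectionVars false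

namespace Vale.Agent.P167.H476.K

open Finset Relation
open Vale.Agent.P145.FB (PStep)
open Vale.Agent.P167.H166
open Vale.Agent.P167.FKA (Cor)
open Vale.Agent.P167.FK (DC)
open Vale.Agent.P167.E6 (edges Encloses IsPolygon dir face wiredOpen)
open Vale.Agent.P167.E2 (mem_edges fin4_1)
open Vale.Agent.P167.H531 (fo')
open Vale.Agent.P167.H718 (Dq etaQ wE mem_Dq' mem_wE wE_sub)
open Vale.Agent.P167.QC (par)
open Vale.Agent.P167.QC.Mid (bc)
open Vale.Agent.P167.H531.Q (BC)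
open Vale.Agent.P167.H174.CT (NearC on_poly fw_cor cor_near cor_near' bq_nm nm_bq wE_notMem cor_of_sq
  adj_cor)

variable {n : ℕ} {p : ZMod n → ℤ × ℤ} {S : Finset (ℤ × ℤ)} {k : ℕ} {z : ℤ × ℤ} {R : ℤ} {c : Bool}

theorem bc_of_nm {t : ℤ × ℤ} (h : nm (t - z) = R) : BC z R t := by
  obtain ⟨a, b⟩ := t
  obtain ⟨z1, z2⟩ := z
  have h0 : |a - z1| ≤ R ∧ |b - z2| ≤ R := by
    have := h.le
    simpa only [nm, Prod.fst_sub, Prod.snd_sub, max_le_iff] using this
  have h1 : |a - z1| = R ∨ |b - z2| = R := by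
    simp only [nm, Prod.fst_sub, Prod.snd_sub] at h
    rcases max_choice |a - z1| |b - z2| with h2 | h2 <;> rw [h2] at h
    · exact Or.inl h
    · exact Or.inr h
  obtain ⟨h2, h3⟩ := h0
  rw [abs_le] at h2 h3
  have h4 : b = z2 - R ∨ a = z1 + R ∨ b = z2 + R ∨ a = z1 - R := by
    rcases h1 with h1 | h1
    · rcases abs_choice (a - z1) with h5 | h5 <;> rw [h5] at h1 <;> omega
    · rcases abs_choice (b - z2) with h5 | h5 <;> rw [h5] at h1 <;> omega
  unfold BC bc
  rcases h4 with h4 | h4 | h4 | h4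
  · refine ⟨a - (z1 - R), by omega, by omega, ?_⟩
    rw [if_pos (by omega)]
    ext <;> simp only <;> omega
  · refine ⟨2 * R + (b - (z2 - R)), by omega, by omega, ?_⟩
    simp only
    split_ifs <;> ext <;> simp only <;> omega
  · refine ⟨4 * R + (z1 + R - a), by omega, by omega, ?_⟩
    simp only
    split_ifs <;> ext <;> simp only <;> omega
  · refine ⟨6 * R + (z2 + R - b), by omega, by omega, ?_⟩
    simp only
    split_ifs <;> ext <;> simp only <;> omega

/-- A path which leaves the box meets its boundary. -/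
theorem bc_of_path {V : Set (ℤ × ℤ)} {s t : ℤ × ℤ} (hs : nm (s - z) ≤ R)
    (h : ReflTransGen (PStep V) s t) (ht : R ≤ nm (t - z)) :
    ∃ t', BC z R t' ∧ ReflTransGen (PStep {v | v ∈ FK.Bq z R ∧ v ∈ V}) s t' := by
  have key : ∀ t, ReflTransGen (PStep V) s t →
      (∃ t', BC z R t' ∧ ReflTransGen (PStep {v | v ∈ FK.Bq z R ∧ v ∈ V}) s t') ∨
      (nm (t - z) < R ∧ ReflTransGen (PStep {v | v ∈ FK.Bq z R ∧ v ∈ V}) s t) := by
    intro t ht
    induction ht with
    | refl =>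
      rcases lt_or_eq_of_le hs with h1 | h1
      · exact Or.inr ⟨h1, ReflTransGen.refl⟩
      · exact Or.inl ⟨s, bc_of_nm h1, ReflTransGen.refl⟩
    | @tail a b _ hab ih =>
      rcases ih with ih | ⟨i1, i2⟩
      · exact Or.inl ih
      · obtain ⟨c1, c2⟩ := FKA.cor_of_step hab
        obtain ⟨h1, h2, h3⟩ := hab
        have hq : (min a.1 b.1, min a.2 b.2) ∈ FK.Bq z R := by
          rw [mem_Bq]
          simp only [nm, Prod.fst_sub, Prod.snd_sub, max_lt_iff, abs_lt] at i1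
          simp only
          omega
        have h4 : ReflTransGen (PStep {v | v ∈ FK.Bq z R ∧ v ∈ V}) s b :=
          i2.tail ⟨h1, h2, hq, h3⟩
        have h5 : nm (b - z) ≤ R := by
          simp only [nm, Prod.fst_sub, Prod.snd_sub, max_lt_iff, abs_lt] at i1
          simp only [nm, Prod.fst_sub, Prod.snd_sub, max_le_iff, abs_le]
          omega
        rcases lt_or_eq_of_le h5 with h6 | h6
        · exact Or.inr ⟨h6, h4⟩
        · exact Or.inl ⟨b, bc_of_nm h6, h4⟩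
  rcases key t h with h1 | ⟨h1, -⟩
  · exact h1
  · omega

/-! ### Closed squares outside -/

/-- An outer face is joined to far away faces outside. -/
theorem dc_out (hp : IsPolygon p) (hS : Encloses p S) (N : ℤ) {f : ℤ × ℤ} (hf : f ∉ S) :
    ∃ g, DC (H192.cfg (edges S)) (H192.rf f) (H192.rf g) ∧ N ≤ g.1 := by
  have hstep : ∀ f : ℤ × ℤ, f ∉ S → (f.1 + 1, f.2) ∉ S →
      PStep (op (H192.cfg (edges S)))ᶜ (H192.rf f) (H192.rf (f.1 + 1, f.2)) := by
    intro f h1 h2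
    have e3 : face (f.1 + 1, f.2) 1 = f := by
      show (f.1 + 1 + -1, f.2 + 0) = f
      ext <;> simp
    have e4 : face (f.1 + 1, f.2) (1 - 1) = (f.1 + 1, f.2) := by
      show (f.1 + 1 + 0, f.2 + 0) = _
      ext <;> simp
    have h3 : s((f.1 + 1, f.2), (f.1 + 1, f.2) + dir 1) ∉ edges S := by
      rw [mem_edges, e3, e4, not_or]
      exact ⟨h1, h2⟩
    have h4 := (QG.dc_face (S := S) (O := (edges S : Set _)) (fun _ h => h) h3).symm
    rw [e3, e4] at h4
    exact h4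
  obtain ⟨M, hM⟩ : ∃ M : ℤ, ∀ f ∈ S, f.1 ≤ M := by
    obtain ⟨f, hf, hmax⟩ := S.exists_max_image (fun f => f.1) ⟨_, H531.fi_mem hp hS 0⟩
    exact ⟨f.1, hmax⟩
  have key : ∀ m : ℕ, ∀ f : ℤ × ℤ, f ∉ S → (max M N + 1 - f.1).toNat = m →
      ∃ g, DC (H192.cfg (edges S)) (H192.rf f) (H192.rf g) ∧ N ≤ g.1 := by
    intro m
    induction m with
    | zero =>
      intro f hf hm
      exact ⟨f, ReflTransGen.refl, by omega⟩
    | succ m ih =>
      intro f hf hm
      by_cases h1 : (f.1 + 1, f.2) ∈ S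
      · have e1 : face (f.1 + 1, f.2) 1 = f := by
          show (f.1 + 1 + -1, f.2 + 0) = f
          ext <;> simp
        have e2 : face (f.1 + 1, f.2) (1 - 1) = (f.1 + 1, f.2) := by
          show (f.1 + 1 + 0, f.2 + 0) = _
          ext <;> simp
        obtain ⟨f1, f2⟩ := f
        -- the opposite direction of the edge
        have e3 : face (f1 + 1, f2 + 1) 2 = (f1, f2) := by
          show (f1 + 1 + -1, f2 + 1 + -1) = _
          ext <;> simp
        have e4 : face (f1 + 1, f2 + 1) 3 = (f1 + 1, f2) := by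
          show (f1 + 1 + 0, f2 + 1 + -1) = _
          ext <;> simp
        obtain ⟨j, hj1, hj2⟩ := (hS (f1 + 1, f2 + 1) 3).2
          ⟨by rw [e4]; exact h1, by rw [show (3 : Fin 4) - 1 = 2 by rfl, e3]; exact hf⟩
        have hro : (3 : Fin 4) = E2.ro p j := E2.ro_unique hp (by rw [hj2, hj1])
        have hfo : fo' p j = (f1, f2) := by
          unfold fo'
          rw [← hro, hj1, show (3 : Fin 4) - 1 = 2 by rfl, e3]
        have h5 := QG.dc_far hp hS (O := (edges S : Set _)) (fun _ h => h) j N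
        rw [hfo] at h5
        exact h5
      · obtain ⟨g, h2, h3⟩ := ih (f.1 + 1, f.2) h1 (by simp only; omega)
        exact ⟨g, ReflTransGen.head (hstep f hf h1) h2, h3⟩
  exact key _ f hf rfl

/-- The squares of the box off `Dq`. -/
def Vo (p : ZMod n → ℤ × ℤ) (S : Finset (ℤ × ℤ)) (k : ℕ) (z : ℤ × ℤ) (R : ℤ) : Set (ℤ × ℤ) :=
  {v | v ∈ FK.Bq z R ∧ v ∉ Dq S p k}

/-- Corners of the same parity of a square are joined by it. -/
theorem step_cor {V : Set (ℤ × ℤ)} {v s t : ℤ × ℤ} (hv : v ∈ V) (hs : Cor v s) (ht : Cor v t)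
    (h : (s.1 + s.2) % 2 = (t.1 + t.2) % 2) : ReflTransGen (PStep V) s t := by
  by_cases hst : s = t
  · rw [hst]
  · refine ReflTransGen.single ?_
    obtain ⟨a, b⟩ := v
    obtain ⟨s1, s2⟩ := s
    obtain ⟨t1, t2⟩ := t
    obtain ⟨h1, h2⟩ := hs
    obtain ⟨h3, h4⟩ := ht
    simp only [Prod.mk.injEq, not_and] at hst
    simp only at h h1 h2 h3 h4
    have h5 : s1 ≠ t1 := by
      intro h5
      have := hst h5
      omega
    have h6 : s2 ≠ t2 := by
      intro h6
      omega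
    have e : ((min s1 t1, min s2 t2) : ℤ × ℤ) = (a, b) := by
      ext <;> simp only <;> omega
    refine ⟨by simp only; omega, by simp only; omega, ?_⟩
    simp only
    rw [e]
    exact hv

theorem out_false (hp : IsPolygon p) (hS : Encloses p S) (hN : NearC p k z R false)
    {w₀ : ℤ × ℤ} (hw : w₀ ∈ FK.Bq z R) (hD : w₀ ∉ Dq S p k) {s : ℤ × ℤ} (hs : Cor w₀ s)
    (hpar : (s.1 + s.2) % 2 = 1) :
    ∃ t, BC z R t ∧ ReflTransGen (PStep (Vo p S k z R)) s t := by
  -- the square is outside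
  have h1 : H192.ed w₀ ∉ edges S := by
    intro h1
    have h2 : H192.ed w₀ ∈ wE p k := by
      by_contra h2
      exact hD (mem_Dq'.2 ⟨h1, h2⟩)
    obtain ⟨i, h3, h4, -, h5, -⟩ := fw_cor hp h2
    have := (hN i (by omega) (cor_near h5 (bq_nm hw))).2 h3
    exact Bool.false_ne_true this
  obtain ⟨f, rfl⟩ : ∃ f, H192.rf f = s := ⟨_, H192.rf_rf' (by rw [Int.even_iff]; omega)⟩
  -- the face is outside
  have hf : f ∉ S := by
    have h2 : PStep (op (H192.cfg (edges S)))ᶜ (H192.rf f)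
        (2 * w₀.1 + 1 - (H192.rf f).1, 2 * w₀.2 + 1 - (H192.rf f).2) := by
      obtain ⟨h3, h4⟩ := hs
      refine ⟨by simp only; omega, by simp only; omega, ?_⟩
      have e : ((min (H192.rf f).1 (2 * w₀.1 + 1 - (H192.rf f).1),
          min (H192.rf f).2 (2 * w₀.2 + 1 - (H192.rf f).2)) : ℤ × ℤ) = w₀ := by
        obtain ⟨a, b⟩ := w₀
        simp only at h3 h4 ⊢
        ext <;> simp only <;> omega
      simp only
      rw [e]
      intro h5
      exact h1 (by simpa using H192.cfg_true.1 h5)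
    have h3 : (2 * w₀.1 + 1 - (H192.rf f).1, 2 * w₀.2 + 1 - (H192.rf f).2) =
        H192.rf (H192.rf' (2 * w₀.1 + 1 - (H192.rf f).1, 2 * w₀.2 + 1 - (H192.rf f).2)) :=
      (H192.rf_rf' (by simp only; rw [Int.even_iff]; omega)).symm
    rw [h3, H192.fStep_iff] at h2
    obtain ⟨v, r, h4, -, h5⟩ := h2
    rw [← h4]
    intro h6
    apply h5
    rw [Finset.mem_coe, mem_edges]
    right
    rwa [show r + 1 - 1 = r from add_sub_cancel_right r 1]
  obtain ⟨g, hg, hN'⟩ := dc_out hp hS (|z.1| + |z.2| + |R|) hf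
  have hn1 : nm (H192.rf f - z) ≤ R := by
    rw [mem_Bq] at hw
    obtain ⟨h3, h4⟩ := hs
    simp only [nm, Prod.fst_sub, Prod.snd_sub, max_le_iff, abs_le]
    omega
  have hn2 : R ≤ nm (H192.rf g - z) := by
    simp only [H192.rf, nm, Prod.fst_sub, Prod.snd_sub, le_max_iff, le_abs]
    have a1 := le_abs_self z.1
    have a2 := le_abs_self z.2
    have a3 := le_abs_self R
    have a4 := neg_abs_le z.1
    have a5 := neg_abs_le z.2
    have a6 := neg_abs_le R
    omega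
  obtain ⟨t, ht, hpath⟩ := bc_of_path (z := z) (R := R) hn1 hg hn2
  refine ⟨t, ht, ReflTransGen.mono (p := PStep (Vo p S k z R))
    (fun a b hab => ⟨hab.1, hab.2.1, hab.2.2.1, fun h2 => ?_⟩) _ _ hpath⟩
  exact hab.2.2.2 (H192.cfg_true.2 (by exact_mod_cast (mem_Dq'.1 h2).1))

theorem ro_step (hp : IsPolygon p) (i : ZMod n) {c1 : ℤ} (h : nm (H192.ro (p i) - z) ≤ c1) :
    nm (H192.ro (p (i + 1)) - z) ≤ c1 + 1 := by
  obtain ⟨d, hd⟩ := hp.2.2 i
  obtain ⟨h1, h2⟩ := H192.ro_dir (p i) d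
  rw [hd]
  simp only [nm, Prod.fst_sub, Prod.snd_sub, max_le_iff, abs_le] at h ⊢
  omega

theorem ro_step' (hp : IsPolygon p) (i : ZMod n) {c1 : ℤ}
    (h : nm (H192.ro (p (i + 1)) - z) ≤ c1) : nm (H192.ro (p i) - z) ≤ c1 + 1 := by
  obtain ⟨d, hd⟩ := hp.2.2 i
  obtain ⟨h1, h2⟩ := H192.ro_dir (p i) d
  rw [hd] at h
  simp only [nm, Prod.fst_sub, Prod.snd_sub, max_le_iff, abs_le] at h ⊢
  omega

/-- Along the wired boundary. -/
theorem out_wired (hp : IsPolygon p) (hS : Encloses p S) (hk0 : 0 < k) (hk : k < n)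
    (hN : NearC p k z R true) : ∀ i : ℕ, k ≤ i → i < n → nm (H192.ro (p i) - z) ≤ R →
    ∃ t, BC z R t ∧ ReflTransGen (PStep (Vo p S k z R)) (H192.ro (p i)) t := by
  intro i hi
  induction i, hi using Nat.le_induction with
  | base =>
    intro h1 h2
    exfalso
    obtain ⟨j, rfl⟩ : ∃ j, k = j + 1 := ⟨k - 1, by omega⟩
    have h3 := ro_step' (z := z) hp (j : ZMod n) (c1 := R) (by push_cast at h2; exact h2)
    have := (hN j (by omega) h3).1 rfl
    omega
  | succ i hi ih =>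
    intro h1 h2
    rcases lt_or_eq_of_le h2 with h3 | h3
    swap
    · exact ⟨_, bc_of_nm h3, ReflTransGen.refl⟩
    have e1 : p ((i + 1 : ℕ) : ZMod n) = p ((i : ZMod n) + 1) := by push_cast; rfl
    have h4 : nm (H192.ro (p i) - z) ≤ R := by
      have := ro_step' (z := z) hp (i : ZMod n) (c1 := R - 1) (by rw [← e1]; omega)
      omega
    obtain ⟨t, ht, hpath⟩ := ih (by omega) h4
    refine ⟨t, ht, ReflTransGen.trans ?_ hpath⟩
    obtain ⟨d, hd⟩ := hp.2.2 (i : ZMod n)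
    have h5 : H192.ed (H192.sq s(p i, p i + dir d)) ∈ wE p k := by
      rw [H192.ed_sq ⟨p i, d, rfl⟩, mem_wE]
      exact ⟨i, hi, h1, by rw [← hd]⟩
    have h6 := cor_of_sq (p (i : ZMod n)) d
    have h7 : Cor (H192.sq s(p (i : ZMod n), p (i : ZMod n) + dir d)) (H192.ro (p ((i + 1 : ℕ) : ZMod n))) := by
      rw [e1, hd]
      obtain ⟨n1, n2⟩ := H192.ro_dir (p (i : ZMod n)) d
      rw [H192.sq_dir]
      constructor <;> simp only <;> omega
    have h8 : H192.sq s(p (i : ZMod n), p (i : ZMod n) + dir d) ∈ Vo p S k z R := by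
      refine ⟨?_, wE_notMem h5⟩
      obtain ⟨n1, n2⟩ := h7
      simp only [nm, Prod.fst_sub, Prod.snd_sub, max_lt_iff, abs_lt] at h3
      rw [mem_Bq]
      omega
    refine step_cor h8 h7 h6 ?_
    rw [Int.even_iff.1 (H192.even_ro _), Int.even_iff.1 (H192.even_ro _)]

theorem out_true (hp : IsPolygon p) (hS : Encloses p S) (hk0 : 0 < k) (hk : k + 1 < n)
    (hN : NearC p k z R true) : ∀ (m : ℕ) (w : ℤ × ℤ), w ∈ FK.Bq z R → w ∉ Dq S p k →
    (z.1 + R - 1 - w.1).toNat = m → ∀ s, Cor w s → (s.1 + s.2) % 2 = 0 →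
    ∃ t, BC z R t ∧ ReflTransGen (PStep (Vo p S k z R)) s t := by
  have hpoly : ∀ (w : ℤ × ℤ), w ∈ FK.Bq z R → w ∉ Dq S p k → ∀ i : ℕ, i < n →
      Cor w (H192.ro (p i)) → ∀ s, Cor w s → (s.1 + s.2) % 2 = 0 →
      ∃ t, BC z R t ∧ ReflTransGen (PStep (Vo p S k z R)) s t := by
    intro w hw hD i hi hc s hs hpar
    have h1 : nm (H192.ro (p i) - z) ≤ R := by
      rw [mem_Bq] at hw
      obtain ⟨h3, h4⟩ := hc
      simp only [nm, Prod.fst_sub, Prod.snd_sub, max_le_iff, abs_le]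
      omega
    have h2 := (hN i hi (by omega)).1 rfl
    obtain ⟨t, ht, hpath⟩ := out_wired hp hS hk0 (by omega) hN i h2 hi h1
    refine ⟨t, ht, ReflTransGen.trans (step_cor (v := w) ⟨hw, hD⟩ hs hc ?_) hpath⟩
    rw [hpar, Int.even_iff.1 (H192.even_ro _)]
  intro m
  induction m with
  | zero =>
    intro w hw hD hm s hs hpar
    rw [mem_Bq] at hw
    have h1 : w.1 = z.1 + R - 1 := by omega
    have key : ∀ t, Cor w t → (t.1 + t.2) % 2 = 0 → t.1 = w.1 + 1 →
        ∃ t, BC z R t ∧ ReflTransGen (PStep (Vo p S k z R)) s t := by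
      intro t ht ht2 ht3
      refine ⟨t, bc_of_nm ?_, step_cor (v := w) ⟨mem_Bq.2 hw, hD⟩ hs ht (by omega)⟩
      obtain ⟨h3, h4⟩ := ht
      simp only [nm, Prod.fst_sub, Prod.snd_sub]
      rw [show t.1 - z.1 = R by omega, abs_of_nonneg (by omega : (0 : ℤ) ≤ R)]
      exact max_eq_left (abs_le.2 (by omega))
    rcases Int.emod_two_eq_zero_or_one (w.1 + 1 + w.2) with h2 | h2
    · exact key (w.1 + 1, w.2) (by simp [Cor]) h2 rfl
    · exact key (w.1 + 1, w.2 + 1) (by simp [Cor]) (by simp only; omega) rfl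
  | succ m ih =>
    intro w hw hD hm s hs hpar
    have hw' := mem_Bq.1 hw
    have hw1 : ((w.1 + 1, w.2) : ℤ × ℤ) ∈ FK.Bq z R := by
      rw [mem_Bq]
      simp only
      omega
    have hadj : H318.Adj w (w.1 + 1, w.2) := Or.inr ⟨rfl, Or.inl rfl⟩
    obtain ⟨s', k1, k2, k3⟩ := adj_cor hadj true
    have k3' : (s'.1 + s'.2) % 2 = 0 := k3
    by_cases h1 : ((w.1 + 1, w.2) : ℤ × ℤ) ∈ Dq S p k
    · by_cases h2 : H192.ed w ∈ edges S
      · have h3 : H192.ed w ∈ wE p k := by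
          by_contra h3
          exact hD (mem_Dq'.2 ⟨h2, h3⟩)
        obtain ⟨i, h4, h5, -, h6, -⟩ := fw_cor hp h3
        exact hpoly w hw hD i (by omega) h6 s hs hpar
      · obtain ⟨i, hi, rfl, -⟩ := on_poly hp hS h2 (mem_Dq'.1 h1).1 k1 k2 k3'
        exact hpoly w hw hD i hi k1 s hs hpar
    · obtain ⟨t, ht, hpath⟩ := ih (w.1 + 1, w.2) hw1 h1 (by simp only; omega) s' k2 k3'
      exact ⟨t, ht, ReflTransGen.trans (step_cor (v := w) ⟨hw, hD⟩ hs k1 (by omega)) hpath⟩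

/-- **The outside is joined to the boundary of the box.** -/
theorem out_bc (hp : IsPolygon p) (hS : Encloses p S) (hk0 : 0 < k) (hk : k + 1 < n)
    (hN : NearC p k z R c) {w₀ : ℤ × ℤ} (hw : w₀ ∈ FK.Bq z R) (hD : w₀ ∉ Dq S p k) {s : ℤ × ℤ}
    (hs : Cor w₀ s) (hpar : (s.1 + s.2) % 2 = par c) :
    ∃ t, BC z R t ∧ ReflTransGen (PStep (Vo p S k z R)) s t := by
  cases c
  · exact out_false hp hS hN hw hD hs hpar
  · exact out_true hp hS hk0 hk hN _ w₀ hw hD rfl s hs hpar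

open Vale.Agent.P167.H531.Q (Gm Sm)
open Vale.Agent.P167.H531.K (Nod Jn)
open Vale.Agent.P167.H476.Q (M2 T2)
open Vale.Agent.P167.H174.CT (thk rep)

/-- **The gap between a bank of the path and the boundary of the domain.** -/
theorem gap2 {N : Type*} {ν : Nod N} {ω : Cfg} {Γ AL : Set Ed} {r : ℤ} {h : ℕ}
    (hp : IsPolygon p) (hE : Encloses p S) (hk0 : 0 < k) (hk : k + 1 < n)
    (hN : NearC p k z R (!c)) (hω : ∀ v ∈ FK.Bq z R, v ∉ Dq S p k → ω v = !c)
    (hG : Gm z R ω Γ) (hrR : r ≤ R) {W : Set (ℤ × ℤ)} (hS : Sm z r h W)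
    {d : Ed} (hd : d ∈ Γ) (td : hdv d ∈ W) {b : N} (hJ : Jn ν z R ω Γ AL (ν.nd c d) b)
    {w₀ : ℤ × ℤ} (hD : w₀ ∉ Dq S p k) (hw : w₀ ∈ W) (hc : Cor w₀ (ν.cor b))
    (hb : ((ν.cor b).1 + (ν.cor b).2) % 2 = par (!c)) : ω ∈ T2 (Dq S p k) c z r R (2 * h) := by
  obtain ⟨t, ht, hpath⟩ := out_bc hp hE hk0 hk hN (H531.Q.bq_mono' hrR (hS.b _ hw)) hD hc hb
  have h1 : ReflTransGen (PStep {v | v ∈ FK.Bq z R ∧ ω v = !c}) (ν.cor b) t :=
    ReflTransGen.mono (p := PStep {v | v ∈ FK.Bq z R ∧ ω v = !c})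
      (fun a b hab => ⟨hab.1, hab.2.1, hab.2.2.1, hω _ hab.2.2.1 hab.2.2.2⟩) _ _ hpath
  have hF : w₀ ∈ (↑(Dq S p k) : Set (ℤ × ℤ))ᶜ := fun h2 => hD (Finset.mem_coe.1 h2)
  obtain ⟨em, el, h2⟩ := m2_of hG hrR hS hd td hJ hF hw hc hb h1 ht
  exact ⟨em, el, h2⟩

open Classical in
/-- The colour of the squares off the domain in the thick configuration. -/
theorem rep_thk {ω : Cfg} {v : ℤ × ℤ} (hv : v ∈ FK.Bq z R) (hD : v ∉ Dq S p k) :
    rep (Dq S p k) (thk p k S z R c) ω v = c := by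
  unfold rep thk
  rw [if_neg hD, if_pos ⟨hv, hD⟩]

end Vale.Agent.P167.H476.K
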