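import Vale.Agent.P167.H476.Q.Mid

/-!
# P167, general `q`, continuity: two strands and the boundary (deterministic part)

The strand `em` passes near the tip of the partially explored strand `ea`. An arm of `em` around the
tip is a fresh crossing, relatively to `ea`. (The flow of the tip is led away along `em` itself.)
-/

set_option autoImplicit false
set_option linter.unusedVariables false
set_option linter.unusedSectionVars false

namespace Vale.Agent.P167.H476.Q

open Vale.Agent.P167 Relation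
open Vale.Agent.P145.FB (PStep PConn)
open Vale.Agent.P167.H871 (Pt)
open Vale.Agent.P167.H632 (Ex sq_inl sq_inr step_cases diag_eq corners ls_par rs_par)
open Vale.Agent.P167.H318 (dvg dvg_add dvg_edge dvg_path cnt cnt_nx cnt_pos cnt_eq_one sg_sq st
  edge_flow Adj)
open Vale.Agent.P167.FKA (Cor)
open Vale.Agent.P167.FK (Bq)
open Vale.Agent.P167.QN (Ann mem_Ann FreshP FreshD)

/-- **The configuration.** The middle strand `em` visits the squares near the tip of `ea`. -/
structure Cb (B : Set Pt) (ω : Cfg) (c : Bool) (em ea : Ed) (nm ka : ℕ) (Qs : Set Pt)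
    (U : Pt → ℤ) : Prop where
  ex : Ex B
  mid : Str B ω em nm
  pm : 1 ≤ nm
  past0 : tlv ea ∉ B
  past : ∀ i ≤ ka, hdv (st ea ω i) ∈ B
  sub : Qs ⊆ B
  tip : hdv (st ea ω ka) ∈ Qs
  vis : ∃ j < nm, ReflTransGen (fun a b => Adj a b ∧ b ∈ Qs) (hdv (st ea ω ka)) (hdv (st em ω j))
  off : ∀ i < ka, hdv (st ea ω i) ∉ Qs
  pot : Pot B (cnt em ω nm) U
  sa : U (bk c ea) = U (bk c em)
  sa' : U (ls ea) = U (rs ea)

variable {B : Set Pt} {ω : Cfg} {c : Bool} {em ea : Ed} {nm ka : ℕ} {Qs : Set Pt}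
  {U : Pt → ℤ}

theorem Cb.Ua (h : Cb B ω c em ea nm ka Qs U) {i : ℕ} (hi : i ≤ ka) (b : Bool) :
    U (bk b (st ea ω i)) = U (bk c em) := by
  rw [h.pot.st (e := ea) (n := i) (fun j hj => h.past j (by omega))
    (fun j hj => h.mid.thru (h.past j (by omega))) b, ← h.sa]
  cases b <;> cases c <;> simp [bk, h.sa']

theorem Cb.Um (h : Cb B ω c em ea nm ka Qs U) {i : ℕ} (hi : i ≤ nm) :
    U (bk c (st em ω i)) = U (bk c em) ∧ U (bk (!c) (st em ω i)) ≠ U (bk c em) := by
  have h1 : U (bk c (st em ω i)) = U (bk c em) :=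
    h.pot.st (e := em) (n := i) (fun j hj => h.mid.mem j (by omega))
      (fun j hj => h.mid.thru (h.mid.mem j (by omega))) c
  refine ⟨h1, ?_⟩
  have h2 : cnt em ω nm (st em ω i) ≠ 0 := by
    have h5 : (1 : ℤ) ≤ cnt em ω nm (st em ω i) := by
      have h6 := Finset.single_le_sum (f := fun j => if st em ω j = st em ω i then (1 : ℤ) else 0)
        (s := Finset.range (nm + 1)) (fun j _ => by split_ifs <;> norm_num)
        (Finset.mem_range.2 (show i < nm + 1 by omega))
      rw [if_pos rfl] at h6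
      exact h6
    omega
  have h3 : U (ls (st em ω i)) = U (rs (st em ω i)) + cnt em ω nm (st em ω i) := by
    refine h.pot _ ?_
    rcases Nat.lt_or_ge i nm with h4 | h4
    · exact Or.inl (h.mid.mem i h4)
    · obtain ⟨j, rfl⟩ : ∃ j, i = j + 1 := ⟨i - 1, by have := h.pm; omega⟩
      rw [tlv_st]
      exact Or.inr (h.mid.mem j (by omega))
  rw [← h1]
  cases c <;> simp only [bk, Bool.not_false, Bool.not_true, if_true, Bool.false_eq_true, if_false] <;>
    omega


/-- The potential of the flow: past of `ea`, chain in `Qs`, rest of `em`. -/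
theorem Cb.exists_u (h : Cb B ω c em ea nm ka Qs U) : ∃ (u : Pt → ℤ) (G : Ed → ℤ),
    Pot B G u ∧ (∀ v ∈ B, v ∉ Qs → Thru ω G v) ∧
    ∀ e, ¬ (hdv e ∈ Qs ∧ tlv e ∈ Qs) → (∀ i ≤ nm, st em ω i ≠ e) → G e = cnt ea ω ka e := by
  obtain ⟨j, hj, hch⟩ := h.vis
  obtain ⟨hQ, K, hK1, hK2⟩ := chain_fl h.tip hch
  set f := st em ω (j + 1) with hf
  set n := nm - (j + 1) with hn
  have hfn : ∀ i, st f ω i = st em ω (j + 1 + i) := fun i => st_add ω em (j + 1) i
  have htf : tlv f = hdv (st em ω j) := tlv_st ω em j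
  have hend : hdv (st f ω n) ∉ B := by
    rw [hfn, show j + 1 + n = nm by omega]
    exact h.mid.exit
  set G : Ed → ℤ := fun e => cnt ea ω ka e + (K e + cnt f ω n e) with hG
  obtain ⟨u, hu⟩ := exists_pot (G := G) h.ex (by
    intro v hv
    have e1 : (fun e => sg e * G e) = fun e => (fun e => sg e * cnt ea ω ka e) e +
        (fun e => (fun e => sg e * K e) e + (fun e => sg e * cnt f ω n e) e) e := by
      funext e
      simp only [hG]
      ring
    rw [e1, dvg_add, dvg_add, dvg_path, dvg_path, hK2, htf]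
    have n1 : v ≠ tlv ea := fun h1 => h.past0 (by rw [← h1]; exact hv)
    have n2 : v ≠ hdv (st f ω n) := fun h1 => hend (by rw [← h1]; exact hv)
    rw [if_neg n1, if_neg n2]
    ring)
  refine ⟨u, G, hu, ?_, ?_⟩
  · intro v hv hvQ e he
    have k1 : cnt ea ω ka (nx ω e) = cnt ea ω ka e := by
      refine cnt_nx (fun h1 => h.past0 ?_) fun h1 => hvQ ?_
      · rw [h1, he]; exact hv
      · rw [← he, ← h1]; exact h.tip
    have k2 : K e = 0 := by
      by_contra h1
      exact hvQ (he ▸ (hK1 e h1).1)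
    have k3 : K (nx ω e) = 0 := by
      by_contra h1
      have := (hK1 _ h1).2
      rw [tlv_nx, he] at this
      exact hvQ this
    have k4 : cnt f ω n (nx ω e) = cnt f ω n e := by
      refine cnt_nx (fun h1 => hvQ ?_) fun h1 => hend ?_
      · rw [← he, ← h1, htf]; exact hQ
      · rw [h1, he]; exact hv
    simp only [hG]
    rw [k1, k2, k3, k4]
  · intro e he hm
    have k2 : K e = 0 := by
      by_contra h1
      exact he (hK1 e h1)
    have k4 : cnt f ω n e = 0 := by
      refine cnt_zero_of fun i hi h1 => hm (j + 1 + i) (by omega) ?_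
      rw [← hfn, h1]
    simp only [hG]
    rw [k2, k4]
    ring

theorem Cb.pastu (h : Cb B ω c em ea nm ka Qs U) {u : Pt → ℤ} {G : Ed → ℤ} (hu : Pot B G u)
    (hT : ∀ v ∈ B, v ∉ Qs → Thru ω G v) {i : ℕ} (hi : i ≤ ka) (b : Bool) :
    u (bk b (st ea ω i)) = u (bk b ea) :=
  hu.st (fun j hj => h.past j (by omega))
    (fun j hj => hT _ (h.past j (by omega)) (h.off j (by omega))) b

/-- **Some edge of the middle strand which crosses the boundary of `S` sees another value.** -/
theorem Cb.exists_out (h : Cb B ω c em ea nm ka Qs U) {u : Pt → ℤ} {G : Ed → ℤ}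
    (hu : Pot B G u) (hG : ∀ e, ¬ (hdv e ∈ Qs ∧ tlv e ∈ Qs) → (∀ i ≤ nm, st em ω i ≠ e) →
      G e = cnt ea ω ka e) {S : Finset Pt} (hQS : ∀ v ∈ Qs, v ∈ S) (h0 : tlv ea ∉ S)
    (hbd : ∀ e, Crs S e → hdv e ∉ B → tlv e ∉ B →
      U (ls e) ≠ U (bk c em) ∧ U (rs e) ≠ U (bk c em)) :
    ∃ i ≤ nm, Crs S (st em ω i) ∧ u (bk c (st em ω i)) ≠ u (bk c ea) := by
  classical
  by_contra hcon
  push Not at hcon
  set L := U (bk c em) with hL
  set a := u (bk c ea) with ha
  set u' : Pt → ℤ := fun s => if U s = L then u s else a with hu'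
  have hsum := sum_flow S (cnt ea ω ka) u' (by
    intro e he
    have hnQ : ¬ (hdv e ∈ Qs ∧ tlv e ∈ Qs) := by
      rintro ⟨h1, h2⟩
      rcases he with ⟨-, h3⟩ | ⟨h3, -⟩
      · exact h3 (hQS _ h2)
      · exact h3 (hQS _ h1)
    by_cases hB : hdv e ∈ B ∨ tlv e ∈ B
    · have hp := h.pot e hB
      by_cases hm : ∃ i ≤ nm, st em ω i = e
      · -- an edge of the middle strand
        obtain ⟨i, hi, rfl⟩ := hm
        obtain ⟨m1, m2⟩ := h.Um hi
        have m3 := hcon i hi he
        have z : cnt ea ω ka (st em ω i) = 0 := by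
          refine cnt_zero_of fun j hj h1 => m2 ?_
          rw [← h1, h.Ua hj]
        have v1 : u' (bk c (st em ω i)) = a := by
          simp only [hu']
          rw [if_pos m1]
          exact m3
        have v2 : u' (bk (!c) (st em ω i)) = a := by
          simp only [hu']
          rw [if_neg m2]
        rw [z, add_zero]
        cases c
        · exact v2.trans v1.symm
        · exact v1.trans v2.symm
      · push Not at hm
        have z := cnt_zero_of hm
        rw [z, add_zero] at hp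
        by_cases hl : U (rs e) = L
        · have hl' : U (ls e) = L := hp.trans hl
          have := hu e hB
          simp only [hu']
          rw [if_pos hl, if_pos hl', this, hG e hnQ hm]
        · have hl' : U (ls e) ≠ L := by rw [hp]; exact hl
          have z : cnt ea ω ka e = 0 := by
            refine cnt_zero_of fun j hj h1 => hl ?_
            have := h.Ua hj false
            rw [h1] at this
            exact this
          simp only [hu']
          rw [if_neg hl, if_neg hl', z, add_zero]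
    · push Not at hB
      obtain ⟨b1, b2⟩ := hbd e he hB.1 hB.2
      have z : cnt ea ω ka e = 0 := by
        refine cnt_zero_of fun j hj h1 => hB.1 ?_
        rw [← h1]
        exact h.past j hj
      simp only [hu']
      rw [if_neg b1, if_neg b2, z, add_zero])
  have hsum2 : ∑ v ∈ S, dvg (fun e => sg e * cnt ea ω ka e) v = -1 := by
    simp only [dvg_path]
    rw [Finset.sum_sub_distrib, Finset.sum_ite_eq', Finset.sum_ite_eq', if_neg h0,
      if_pos (hQS _ h.tip)]
    norm_num
  rw [hsum2] at hsum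
  norm_num at hsum

/-- The middle strand visits `Qs`. -/
theorem Cb.visit (h : Cb B ω c em ea nm ka Qs U) : ∃ i < nm, hdv (st em ω i) ∈ Qs := by
  obtain ⟨j, hj, hch⟩ := h.vis
  exact ⟨j, hj, (chain_fl h.tip hch).1⟩

/-- **The middle strand lemma** (deterministic part); `D₀` = the squares which are not frozen. -/
theorem Cb.fr' (h : Cb B ω c em ea nm ka Qs U) {x : Pt} {r R : ℤ} (hrR : r < R)
    (hQ : ∀ v ∈ Qs, v ∈ Bq x r) (h0 : tlv ea ∉ Bq x R)
    (hbd : ∀ e, Crs (Bq x R) e → hdv e ∉ B → tlv e ∉ B →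
      U (ls e) ≠ U (bk c em) ∧ U (rs e) ≠ U (bk c em)) (D₀ : Set Pt)
    (hbd0 : ∀ v ∈ Ann x r R, ω v = c → v ∉ B ∨ v ∉ D₀ → ∀ s, Cor v s → U s ≠ U (bk c em))
    {D : Finset Pt}
    (hD : ∀ v ∈ Ann x r R, v ∈ B → v ∈ D₀ → (∀ i < ka, hdv (st ea ω i) ≠ v) → v ∈ D) :
    Fr c x r R D ω := by
  have hbd' : ∀ v ∈ Ann x r R, ω v = c → v ∉ B → ∀ s, Cor v s → U s ≠ U (bk c em) :=
    fun v hv hc hn => hbd0 v hv hc (Or.inl hn)
  obtain ⟨u, G, hu, hT, hG⟩ := h.exists_u
  have hQR : ∀ v ∈ Qs, v ∈ Bq x R := fun v hv => H167.Q.bq_mono hrR.le (hQ v hv)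
  obtain ⟨io, hio, hcr, hne⟩ := h.exists_out hu hG (S := Bq x R) hQR h0 hbd
  obtain ⟨iq, hiq, hvq⟩ := h.visit
  set L := U (bk c em) with hL
  set a := u (bk c ea) with ha
  set P : Pt → Prop := fun s => U s = L ∧ u s ≠ a ∧ (s.1 + s.2) % 2 = pr c with hP
  -- the path
  obtain ⟨y, y', hy, hy1, hy2, hpath⟩ : ∃ y y', P y ∧ Vale.Agent.P167.nm (y - x) ≤ r ∧ R ≤ Vale.Agent.P167.nm (y' - x) ∧
      ReflTransGen (fun a b => PStep {v | ω v = c} a b ∧ P a ∧ P b) y y' := by
    classical
    rcases le_or_gt io iq with hle | hlt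
    · -- forward
      have hex : ∃ i, io ≤ i ∧ hdv (st em ω i) ∈ Qs := ⟨iq, hle, hvq⟩
      obtain ⟨i1, ⟨b1, b2⟩, b3, b4⟩ : ∃ i1, (io ≤ i1 ∧ hdv (st em ω i1) ∈ Qs) ∧ i1 ≤ iq ∧
          ∀ i, io ≤ i → i < i1 → hdv (st em ω i) ∉ Qs :=
        ⟨Nat.find hex, Nat.find_spec hex, Nat.find_min' hex ⟨hle, hvq⟩,
          fun i hi hlt hm => Nat.find_min hex hlt ⟨hi, hm⟩⟩
      set g := st em ω io with hg
      have hgi : ∀ i, st g ω i = st em ω (io + i) := fun i => st_add ω em io i
      have hPi : ∀ i ≤ i1 - io, P (bk c (st g ω i)) := by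
        intro i hi
        refine ⟨?_, ?_, bk_par _ _⟩
        · rw [hgi]; exact (h.Um (by omega)).1
        · rw [hu.st (e := g) (n := i) (fun j hj => ?_) (fun j hj => ?_) c]
          · exact hne
          · rw [hgi]; exact h.mid.mem _ (by omega)
          · rw [hgi]; exact hT _ (h.mid.mem _ (by omega)) (b4 _ (by omega) (by omega))
      have hp := seg_path (P := P) hPi
      have hlast : st g ω (i1 - io) = st em ω i1 := by
        rw [hgi, show io + (i1 - io) = i1 by omega]
      refine ⟨bk c (st g ω (i1 - io)), bk c g, hPi _ le_rfl, ?_, crs_nm hcr, ?_⟩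
      · rw [hlast]
        exact (nm_cor (co_bk c _)).1 (hQ _ b2)
      · exact rtg_sym (fun a b hab => ⟨pstep_symm hab.1, hab.2.2, hab.2.1⟩) hp
    · -- backward
      obtain ⟨i1, b1, b2, b4⟩ : ∃ i1, i1 < io ∧ hdv (st em ω i1) ∈ Qs ∧
          ∀ i, i1 < i → i < io → hdv (st em ω i) ∉ Qs := by
        set i1 := Nat.findGreatest (fun i => i < io ∧ hdv (st em ω i) ∈ Qs) io with hi1
        have hs : i1 < io ∧ hdv (st em ω i1) ∈ Qs :=
          Nat.findGreatest_spec (P := fun i => i < io ∧ hdv (st em ω i) ∈ Qs) (m := iq) hlt.le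
            ⟨hlt, hvq⟩
        exact ⟨i1, hs.1, hs.2, fun i h1 h2 h3 => Nat.findGreatest_is_greatest
          (P := fun i => i < io ∧ hdv (st em ω i) ∈ Qs) h1 h2.le ⟨h2, h3⟩⟩
      set g := st em ω (i1 + 1) with hg
      have hgi : ∀ i, st g ω i = st em ω (i1 + 1 + i) := fun i => st_add ω em (i1 + 1) i
      have hlast : st g ω (io - (i1 + 1)) = st em ω io := by
        rw [hgi, show i1 + 1 + (io - (i1 + 1)) = io by omega]
      have hcon : ∀ i ≤ io - (i1 + 1), u (bk c (st g ω i)) = u (bk c g) := by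
        intro i hi
        refine hu.st (fun j hj => ?_) (fun j hj => ?_) c
        · rw [hgi]; exact h.mid.mem _ (by omega)
        · rw [hgi]; exact hT _ (h.mid.mem _ (by omega)) (b4 _ (by omega) (by omega))
      have hPi : ∀ i ≤ io - (i1 + 1), P (bk c (st g ω i)) := by
        intro i hi
        refine ⟨?_, ?_, bk_par _ _⟩
        · rw [hgi]; exact (h.Um (by omega)).1
        · rw [hcon i hi, ← hcon _ le_rfl, hlast]
          exact hne
      have hp := seg_path (P := P) hPi
      refine ⟨bk c g, bk c (st g ω (io - (i1 + 1))), hPi 0 (by omega), ?_, ?_, hp⟩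
      · refine (nm_cor (co_bk' c g)).1 (hQ _ ?_)
        rw [hg, tlv_st]
        exact b2
      · rw [hlast]
        exact crs_nm hcr
  obtain ⟨s, t, hs, hs1, ht1, hst⟩ := cut_path hrR hpath hy hy1 hy2
  have hQn : ∀ v ∈ Ann x r R, v ∉ Qs := fun v hv hq => (mem_Ann.1 hv).2 (hQ v hq)
  -- the cluster
  have hclu : ∀ w, ReflTransGen (PStep {v | v ∈ Ann x r R ∧ ω v = c}) s w → P w := by
    intro w hw
    induction hw with
    | refl => exact hs
    | @tail b d _ hbd2 ih =>
      obtain ⟨c1, c2⟩ := FKA.cor_of_step hbd2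
      obtain ⟨k1, k2, k3⟩ := hbd2
      set q : Pt := (min b.1 d.1, min b.2 d.2) with hq
      have hqA : q ∈ Ann x r R := k3.1
      have hqc : ω q = c := k3.2
      have hqB : q ∈ B := by
        by_contra hn
        exact hbd' q hqA hqc hn b c1 ih.1
      have hpb : (b.1 + b.2) % 2 = pr (ω q) := by rw [hqc]; exact ih.2.2
      have hpd' : (d.1 + d.2) % 2 = (b.1 + b.2) % 2 := by omega
      have hpd : (d.1 + d.2) % 2 = pr (ω q) := hpd'.trans hpb
      refine ⟨?_, ?_, hpd'.trans ih.2.2⟩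
      · rw [h.pot.cor hqB (h.mid.thru hqB) c2 c1 hpd hpb]
        exact ih.1
      · rw [hu.cor hqB (hT q hqB (hQn q hqA)) c2 c1 hpd hpb]
        exact ih.2.1
  refine ⟨s, t, hs.2.2, hs1, ht1, hst, fun v hv hvc w hw hcw hsw => ?_⟩
  have hPw := hclu w hsw
  have hvB : v ∈ B := by
    by_contra hn
    exact hbd' v hv hvc hn w hcw hPw.1
  have hpw : (w.1 + w.2) % 2 = pr (ω v) := by rw [hvc]; exact hw
  have hvD : v ∈ D₀ := by
    by_contra hn
    exact hbd0 v hv hvc (Or.inr hn) w hcw hPw.1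
  refine hD v hv hvB hvD fun i hi hiv => ?_
  apply hPw.2.1
  rw [hu.cor hvB (hT v hvB (hQn v hv)) hcw (s' := bk c (st ea ω i)) (by rw [← hiv]; exact co_bk _ _)
    hpw (by rw [hvc]; exact bk_par _ _)]
  exact h.pastu hu hT hi.le c

end Vale.Agent.P167.H476.Q
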