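import Vale.Agent.P167.H476.Q.Law2

/-!
# P167, general `q`, continuity: the middle strand lemma, final form
-/

set_option autoImplicit false
set_option linter.unusedVariables false
set_option linter.unusedSectionVars false

namespace Vale.Agent.P167.H476.Q

open Finset Vale.Agent.P167 Vale.Agent.P167.FK Vale.Agent.P167.FKA Relation
open Vale.Agent.P145.FB (PStep PConn)
open Vale.Agent.P167.H871 (Pt)
open Vale.Agent.P167.H632 (Ex)
open Vale.Agent.P167.H318 (st Adj hit cnt)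
open Vale.Agent.P167.H558 (StopSet Past)
open Vale.Agent.P167.H259 (f_markov f_fkg f_comp f_comp2)
open Vale.Agent.P167.QN (Ann mem_Ann FreshP FreshD fresh_both)

theorem adj_symm' {a b : Pt} (h : Adj a b) : Adj b a := by
  unfold Adj at *
  omega

/-- `v` and `w` are joined by at most `h` steps in `B'`. -/
def Near (B' : Set Pt) (h : ℕ) (v w : Pt) : Prop :=
  ∃ l ≤ h, ∃ p : ℕ → Pt, p 0 = v ∧ p l = w ∧ (∀ i < l, Adj (p i) (p (i + 1))) ∧ ∀ i ≤ l, p i ∈ B'

theorem Near.symm {B' : Set Pt} {h : ℕ} {v w : Pt} (hn : Near B' h v w) : Near B' h w v := by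
  obtain ⟨l, hl, p, h1, h2, h3, h4⟩ := hn
  refine ⟨l, hl, fun i => p (l - i), by simpa using h2, by simpa using h1, fun i hi => ?_,
    fun i _ => h4 _ (by omega)⟩
  have := h3 (l - (i + 1)) (by omega)
  rw [show l - (i + 1) + 1 = l - i by omega] at this
  exact adj_symm' this

theorem Near.nbr {B' T : Set Pt} {h : ℕ} {v w : Pt} (hn : Near B' h v w) (hw : w ∈ T) :
    v ∈ Nbr B' T h := by
  obtain ⟨l, hl, p, h1, h2, h3, h4⟩ := hn
  have key : ∀ j ≤ l, p (l - j) ∈ Nbr B' T j := by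
    intro j
    induction j with
    | zero =>
      intro _
      rw [Nat.sub_zero, h2]
      exact ⟨hw, h2 ▸ h4 l le_rfl⟩
    | succ j ih =>
      intro hj
      refine Or.inr ⟨h4 _ (by omega), _, ih (by omega), ?_⟩
      have := h3 (l - (j + 1)) (by omega)
      rwa [show l - (j + 1) + 1 = l - j by omega] at this
  have h5 := key l le_rfl
  rw [Nat.sub_self, h1] at h5
  have mono : ∀ k, l ≤ k → v ∈ Nbr B' T k := by
    intro k hk
    induction k, hk using Nat.le_induction with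
    | base => exact h5
    | succ k _ ih => exact Or.inl ih
  exact mono h hl

/-- The exit index of the strand of `B` which enters with `e`. -/
noncomputable def xt (B : Finset Pt) (e : Ed) (ω : Cfg) : ℕ := hit B e ∅ ω

theorem str_xt {B : Finset Pt} {e : Ed} (h0 : tlv e ∉ B) (ω : Cfg) : Str (↑B) ω e (xt B e ω) where
  start := h0
  mem := fun _ hi => (lt_hit hi).2
  exit := by
    rcases hit_spec (S := ∅) (ω := ω) h0 with h | h
    · exact absurd h (Set.notMem_empty _)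
    · exact h

/-- **Three strands** of `B`: the strand `em` separates the strand `el` on its left from the strand
`er` on its right, and the outer strands are joined by at most `h` steps in `B'`. -/
def M3 (B : Finset Pt) (B' : Set Pt) (h : ℕ) (em el er : Ed) (ω : Cfg) : Prop :=
  em ∈ E0 B ∧ el ∈ E0 B ∧ er ∈ E0 B ∧ el ≠ em ∧ er ≠ em ∧
    (∃ U, Pot (↑B) (cnt em ω (xt B em ω)) U ∧ U (ls el) = U (ls em) ∧ U (rs er) = U (rs em)) ∧
    ∃ i < xt B el ω, ∃ j < xt B er ω, Near B' h (hdv (st el ω i)) (hdv (st er ω j))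

theorem stp_of {B : Finset Pt} {B' : Set Pt} {h : ℕ} {ec ea : Ed} {ω : Cfg} (hc : ec ∈ E0 B)
    (ha : ea ∈ E0 B) {i j : ℕ} (hi : i < xt B ea ω) (hj : j < xt B ec ω)
    (hn : Near B' h (hdv (st ea ω i)) (hdv (st ec ω j))) :
    Stp B B' h ec ea ω ∧ hit B ea (Tg B B' h ec ω) ω ≤ i := by
  have h0 := (mem_E0.1 ha).2
  have h1 : hdv (st ea ω i) ∈ Tg B B' h ec ω :=
    hn.nbr (Finset.mem_coe.2 (mem_Tr.2 ⟨j, hj, rfl⟩))
  have h2 : hit B ea (Tg B B' h ec ω) ω ≤ i :=
    Nat.sInf_le (show hdv (st ea ω i) ∈ Tg B B' h ec ω ∨ _ from Or.inl h1)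
  refine ⟨⟨(mem_E0.1 hc).2, h0, ?_⟩, h2⟩
  rcases hit_spec (S := Tg B B' h ec ω) (ω := ω) h0 with h3 | h3
  · exact h3
  · exact absurd (lt_hit (S := ∅) (lt_of_le_of_lt h2 hi)).2 h3

/-- Three strands give a fresh crossing. -/
theorem M3.mev {B : Finset Pt} (hEx : Ex (↑B : Set Pt)) {B' : Set Pt} {h : ℕ} {R : ℤ}
    (hR : (h : ℤ) + 1 < R) (hB' : ∀ v ∈ B', ∀ w ∈ Bq v R, w ∈ B) {D₀ : Finset Pt} {c : Bool}
    {em el er : Ed} {ω : Cfg} (hc : ∀ v ∈ B, v ∉ D₀ → ω v ≠ c) (hM : M3 B B' h em el er ω) :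
    ∃ ec ea, Mev B B' h (h + 1) R (D₀ ∩ B) ec ea ω := by
  obtain ⟨hm, hl, hr, hlm, hrm, ⟨U, hU, hUl, hUr⟩, i, hi, j, hj, hn⟩ := hM
  -- the potentials of the outer strands
  have same : ∀ e ∈ E0 B, e ≠ em → U (ls e) = U (rs e) := by
    intro e he hne
    have h1 := hU e (Or.inl (Finset.mem_coe.2 (mem_E0.1 he).1))
    rw [cnt_zero_of fun k _ h2 => ?_, add_zero] at h1
    · exact h1
    · rcases Nat.eq_zero_or_pos k with h3 | h3
      · subst h3
        exact hne h2.symm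
      · obtain ⟨k', rfl⟩ : ∃ k', k = k' + 1 := ⟨k - 1, by omega⟩
        apply (mem_E0.1 he).2
        rw [← h2, tlv_st]
        have hk : k' < xt B em ω := by omega
        exact (lt_hit hk).2
  -- the generic construction
  have main : ∀ (c : Bool) (ea ec : Ed), (∀ v ∈ B, v ∉ D₀ → ω v ≠ c) → ea ∈ E0 B → ec ∈ E0 B →
      ea ≠ em → ec ≠ em → U (bk c ea) = U (bk c em) → U (bk c ec) ≠ U (bk c em) →
      ∀ i < xt B ea ω, ∀ j < xt B ec ω, Near B' h (hdv (st ea ω i)) (hdv (st ec ω j)) →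
      Mev B B' h (h + 1) R (D₀ ∩ B) ec ea ω := by
    intro c ea ec hc ha hcc ham hcm hUa hUc i hi j hj hn
    obtain ⟨hS, hle⟩ := stp_of hcc ha hi hj hn
    set ka := hit B ea (Tg B B' h ec ω) ω with hka
    have htip : hdv (st ea ω ka) ∈ Tg B B' h ec ω := hS.2.2
    obtain ⟨w, hw, hch⟩ := Nbr_chain htip
    obtain ⟨j', hj', hjw⟩ := mem_Tr.1 (Finset.mem_coe.1 hw)
    set x := hdv (st ea ω ka) with hx
    set Qs : Set Pt := {b | b ∈ Nbr B' (↑(Tr B ec ∅ ω)) h ∧ nm (b - x) ≤ h} with hQs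
    have hBB : ∀ v ∈ B', v ∈ B := fun v hv => hB' v hv v (by
      rw [H167.Q.mem_Bq]; omega)
    have hxB' : x ∈ B' := Nbr_sub htip
    have hcf : Cf (↑B) ω c em ea ec (xt B em ω) ka (xt B ec ω) Qs U := by
      refine ⟨hEx, str_xt (mem_E0.1 hm).2 ω, ?_, str_xt (mem_E0.1 hcc).2 ω, (mem_E0.1 ha).2, ?_, ?_, ?_,
        ?_, ?_, hU, hUa, same ea ha ham, hUc, same ec hcc hcm⟩
      · by_contra h0
        have h1 : xt B em ω = 0 := by omega
        have h2 := (str_xt (mem_E0.1 hm).2 ω).exit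
        rw [h1, st_zero] at h2
        exact h2 (mem_E0.1 hm).1
      · intro k hk
        exact (lt_hit (S := ∅) (show k < xt B ea ω by omega)).2
      · intro v hv
        exact hBB v (Nbr_sub hv.1)
      · refine ⟨htip, ?_⟩
        rw [sub_self]
        simp [nm]
      · refine ⟨j', hj', ?_⟩
        rw [hjw]
        exact hch
      · intro k hk hmem
        exact (lt_hit (S := Tg B B' h ec ω) hk).1 hmem.1
    have hfr := hcf.fr' (x := x) (r := h + 1) (R := R) hR ?_ ?_ ?_ ↑D₀ ?_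
      (D := (D₀ ∩ B) \ rd B B' h ec ea ω) ?_
    · exact ⟨hS, hfr.fresh⟩
    · intro v hv
      have h1 := H632.nm_le.1 hv.2
      rw [H167.Q.mem_Bq]
      simp only [Prod.fst_sub, Prod.snd_sub] at h1
      omega
    · intro h1
      exact (mem_E0.1 ha).2 (hB' x hxB' _ h1)
    · intro e he h1 h2
      exfalso
      rcases he with ⟨h3, -⟩ | ⟨-, h3⟩
      · exact h1 (hB' x hxB' _ h3)
      · exact h2 (hB' x hxB' _ h3)
    · intro v hv hvc hn
      exfalso
      have hvB : v ∈ B := hB' x hxB' _ (mem_Ann.1 hv).1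
      rcases hn with hn | hn
      · exact hn hvB
      · exact hc v hvB hn hvc
    · intro v hv h1 h2 h3 h4
      rw [Finset.mem_sdiff, Finset.mem_inter]
      refine ⟨⟨h2, h1⟩, fun h5 => ?_⟩
      unfold rd at h5
      rw [Finset.mem_union, mem_Tr, mem_Tr] at h5
      rcases h5 with ⟨k, hk, hkv⟩ | ⟨k, hk, hkv⟩
      · exact h4 k hk hkv
      · exact h3 k hk hkv
  have hm' : U (ls em) = U (rs em) + cnt em ω (xt B em ω) em :=
    hU em (Or.inl (Finset.mem_coe.2 (mem_E0.1 hm).1))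
  have hcm : cnt em ω (xt B em ω) em = 1 := by
    have := H318.cnt_eq_one (D := B) (e0 := em) (ξ := ω) (n := xt B em ω) (i := 0) (mem_E0.1 hm).2
      (fun k hk => (lt_hit hk).2) (by omega)
    exact this
  cases c
  · -- frozen squares are open: the fresh crossing is dual
    refine ⟨el, er, main false er el hc hr hl hrm hlm hUr ?_ j hj i hi hn.symm⟩
    have h1 := same el hl hlm
    show U (rs el) ≠ U (rs em)
    omega
  · refine ⟨er, el, main true el er hc hl hr hlm hrm hUl ?_ i hi j hj hn⟩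
    have h1 := same er hr hrm
    show U (ls er) ≠ U (ls em)
    omega

/-- **The middle strand lemma.** `c` = a colour without frozen squares in the box (any colour in the
bulk); `G` does not read the squares of the box. -/
theorem lemma_M {Q α C : ℝ} (hQ : 1 ≤ Q) (hA : ArmDec Q α C) {B : Finset Pt}
    (hEx : Ex (↑B : Set Pt)) {B' : Set Pt} {h : ℕ} {R : ℤ} (hR : (h : ℤ) + 1 < R)
    (hB' : ∀ v ∈ B', ∀ w ∈ Bq v R, w ∈ B) {D₀ : Finset Pt} {η : Cfg} (hη : Good η) {c : Bool}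
    (hc : ∀ v ∈ B, v ∉ D₀ → η v ≠ c) {G : Cfg → ℝ} (hG0 : ∀ ω, 0 ≤ G ω) (hG : Ind (D₀ ∩ B) G) :
    Ex Q D₀ η (fun ω => G ω * {ω | ∃ em el er, M3 B B' h em el er ω}.indicator 1 ω) ≤
      2 * Q ^ 2 * C * (((h : ℝ) + 1) / R) ^ α * Ex Q D₀ η (fun ω => G ω * (En B B' ω : ℝ) ^ 2) := by
  have hQ0 : 0 < Q := by linarith
  have hBB : B' ⊆ ↑B := fun v hv => hB' v hv v (by rw [H167.Q.mem_Bq]; omega)
  have h1 := mid_law (h := h) hQ hA (r := h + 1) (R := R) (by omega) hR.le hBB hη hG0 hG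
  push_cast at h1
  refine le_trans (Ex_mono hQ0 fun S' _ => mul_le_mul_of_nonneg_left ?_ (hG0 _)) h1
  by_cases hm : ∃ em el er, M3 B B' h em el er (cf D₀ η S')
  · obtain ⟨em, el, er, hm'⟩ := hm
    have h2 := hm'.mev hEx hR hB' (D₀ := D₀) (c := c) fun v hv hn => by
      rw [cf_out hn]; exact hc v hv hn
    rw [Set.indicator_of_mem (show cf D₀ η S' ∈ {ω | ∃ em el er, M3 B B' h em el er ω} from
      ⟨em, el, er, hm'⟩), Set.indicator_of_mem (show cf D₀ η S' ∈
      {ω | ∃ ec ea, Mev B B' h (h + 1) R (D₀ ∩ B) ec ea ω} from h2)]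
  · rw [Set.indicator_of_notMem (show cf D₀ η S' ∉ {ω | ∃ em el er, M3 B B' h em el er ω} from hm)]
    exact ind_nonneg _ _

end Vale.Agent.P167.H476.Q
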