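import Vale.Agent.P167.H318.Contact
import Vale.Agent.P167.QN.Fresh

/-!
# P167, general `q`, continuity: potentials of flows (tools for the middle strand lemma)
-/

set_option autoImplicit false
set_option linter.unusedVariables false
set_option linter.unusedSectionVars false

namespace Vale.Agent.P167.H476.Q

open Vale.Agent.P167 Relation
open Vale.Agent.P145.FB (PStep PConn)
open Vale.Agent.P167.H871 (Pt)
open Vale.Agent.P167.H632 (Ex sq_inl sq_inr step_cases diag_eq corners ls_par rs_par)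
open Vale.Agent.P167.H318 (dvg dvg_add dvg_edge dvg_path cnt cnt_nx cnt_pos cnt_eq_one sg_sq st
  edge_flow Adj)
open Vale.Agent.P167.FKA (Cor)

/-- `u` has the jump `G e` at the edges which touch `B`. -/
def Pot (B : Set Pt) (G : Ed → ℤ) (u : Pt → ℤ) : Prop :=
  ∀ e, (hdv e ∈ B ∨ tlv e ∈ B) → u (ls e) = u (rs e) + G e

/-- The flow goes straight along the strands at the square `v`. -/
def Thru (ω : Cfg) (G : Ed → ℤ) (v : Pt) : Prop := ∀ e, hdv e = v → G (nx ω e) = G e

/-- The site of the bank of colour `c`. -/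
def bk (c : Bool) (e : Ed) : Pt := if c then ls e else rs e

/-- The parity of the sites of colour `c`. -/
def pr (c : Bool) : ℤ := if c then 0 else 1

theorem bk_par (c : Bool) (e : Ed) : ((bk c e).1 + (bk c e).2) % 2 = pr c := by
  cases c
  · exact rs_par e
  · exact ls_par e

theorem tlv_st (ω : Cfg) (e : Ed) (i : ℕ) : tlv (st e ω (i + 1)) = hdv (st e ω i) := by
  unfold st
  rw [Function.iterate_succ_apply', tlv_nx]

theorem st_succ (ω : Cfg) (e : Ed) (i : ℕ) : st e ω (i + 1) = nx ω (st e ω i) := by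
  unfold st
  rw [Function.iterate_succ_apply']

theorem st_zero (ω : Cfg) (e : Ed) : st e ω 0 = e := rfl

theorem st_add (ω : Cfg) (e : Ed) (i j : ℕ) : st (st e ω i) ω j = st e ω (i + j) := by
  unfold st
  rw [← Function.iterate_add_apply, add_comm]

variable {B : Set Pt} {ω : Cfg} {G : Ed → ℤ} {u : Pt → ℤ}

/-- Flows which are balanced on `B` have a potential. -/
theorem exists_pot (hB : Ex B) (h : ∀ v ∈ B, dvg (fun e => sg e * G e) v = 0) :
    ∃ u, Pot B G u := by
  obtain ⟨u, hu⟩ := hB (fun e => sg e * G e) (by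
    intro v hv
    have := h v hv
    simp only [dvg] at this
    linarith)
  refine ⟨u, fun e he => ?_⟩
  rw [hu e he, ← mul_assoc, sg_sq, one_mul]

theorem Pot.nx (hu : Pot B G u) {v : Pt} (hv : v ∈ B) (hT : Thru ω G v) {e : Ed}
    (he : hdv e = v) (c : Bool) : u (bk c (nx ω e)) = u (bk c e) := by
  have e1 := hu e (Or.inl (by rw [he]; exact hv))
  have e2 := hu (Vale.Agent.P167.nx ω e) (Or.inr (by rw [tlv_nx, he]; exact hv))
  rw [hT e he] at e2
  rcases step_cases ω e with ⟨-, h, -⟩ | ⟨-, h, -⟩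
  · have h3 : u (rs (Vale.Agent.P167.nx ω e)) = u (rs e) := by rw [h]
    cases c
    · exact h3
    · show u (ls _) = u (ls e)
      omega
  · have h3 : u (ls (Vale.Agent.P167.nx ω e)) = u (ls e) := by rw [h]
    cases c
    · show u (rs _) = u (rs e)
      omega
    · exact h3

/-- Along a strand. -/
theorem Pot.st (hu : Pot B G u) {e : Ed} {n : ℕ} (hB : ∀ i < n, hdv (st e ω i) ∈ B)
    (hT : ∀ i < n, Thru ω G (hdv (H318.st e ω i))) (c : Bool) :
    u (bk c (H318.st e ω n)) = u (bk c e) := by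
  induction n with
  | zero => rfl
  | succ n ih =>
    rw [st_succ, hu.nx (hB n (by omega)) (hT n (by omega)) rfl,
      ih (fun i hi => hB i (by omega)) fun i hi => hT i (by omega)]

theorem co_bk (c : Bool) (e : Ed) : Cor (hdv e) (bk c e) := by
  cases c
  · exact (corners e).2
  · exact (corners e).1

theorem co_bk' (c : Bool) (e : Ed) : Cor (tlv e) (bk c e) := by
  unfold Cor bk
  rcases e with ⟨x, y⟩ | ⟨x, y⟩ <;> by_cases h : Even (x + y) <;> cases c <;>
    simp [ls, rs, tlv, h]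

/-- The bank of colour `ω v` jumps along the diagonal of `v`. -/
theorem step_bk (ω : Cfg) (e : Ed) :
    PStep {hdv e} (bk (ω (hdv e)) e) (bk (ω (hdv e)) (nx ω e)) ∧
      bk (!ω (hdv e)) (nx ω e) = bk (!ω (hdv e)) e := by
  rcases step_cases ω e with ⟨h1, h2, h3⟩ | ⟨h1, h2, h3⟩
  · rw [h1]; exact ⟨h3, h2⟩
  · rw [h1]; exact ⟨h3, h2⟩

/-- The potential is constant on the corners of the colour of the square. -/
theorem Pot.cor (hu : Pot B G u) {v : Pt} (hv : v ∈ B) (hT : Thru ω G v) {s s' : Pt}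
    (hs : Cor v s) (hs' : Cor v s') (hp : (s.1 + s.2) % 2 = pr (ω v))
    (hp' : (s'.1 + s'.2) % 2 = pr (ω v)) : u s = u s' := by
  have he := FK.hdv_ib v
  set e := FK.ib v with hee
  obtain ⟨h1, -⟩ := step_bk ω e
  rw [he] at h1
  have h2 := hu.nx hv hT he (ω v)
  have h3 := bk_par (ω v) e
  rcases diag_eq h1 hs (by rw [hp, h3]) with h | h <;>
    rcases diag_eq h1 hs' (by rw [hp', h3]) with h' | h' <;> rw [h, h']
  · exact h2.symm
  · exact h2

/-- The potential is constant around a square which the flow does not touch. -/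
theorem Pot.sq (hu : Pot B G u) {v : Pt} (hv : v ∈ B)
    (h0 : ∀ e, (hdv e = v ∨ tlv e = v) → G e = 0) {s s' : Pt} (hs : Cor v s) (hs' : Cor v s') :
    u s = u s' := by
  obtain ⟨x, y⟩ := v
  have key : ∀ e, (hdv e = (x, y) ∨ tlv e = (x, y)) → u (ls e) = u (rs e) := by
    intro e he
    have := hu e (by rcases he with h | h <;> simp [h, hv])
    rw [h0 e he, add_zero] at this
    exact this
  have a1 : u (x + 1, y) = u (x + 1, y + 1) := by
    have := key (Sum.inl (x, y)) (by rcases sq_inl (x, y) with h | h <;> simp [h.1, h.2.1])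
    rcases sq_inl (x, y) with h | h <;> rw [h.2.2.2.1, h.2.2.2.2] at this <;> dsimp only at this
    · exact this
    · exact this.symm
  have a2 : u (x, y + 1) = u (x + 1, y + 1) := by
    have := key (Sum.inr (x, y)) (by rcases sq_inr (x, y) with h | h <;> simp [h.1, h.2.1])
    rcases sq_inr (x, y) with h | h <;> rw [h.2.2.2.1, h.2.2.2.2] at this <;> dsimp only at this
    · exact this.symm
    · exact this
  have a3 : u (x, y) = u (x, y + 1) := by
    have := key (Sum.inl (x - 1, y)) (by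
      rcases sq_inl (x - 1, y) with h | h <;> simp [h.1, h.2.1])
    rcases sq_inl (x - 1, y) with h | h <;> rw [h.2.2.2.1, h.2.2.2.2] at this <;>
      dsimp only at this <;> rw [show x - 1 + 1 = x by ring] at this
    · exact this
    · exact this.symm
  have hc : ∀ s : Pt, Cor (x, y) s → u s = u (x + 1, y + 1) := by
    rintro ⟨a, b⟩ ⟨h1 | h1, h2 | h2⟩ <;> dsimp only at h1 h2 <;> subst h1 h2
    · rw [a3, a2]
    · rw [a2]
    · rw [a1]
    · rfl
  rw [hc s hs, hc s' hs']

/-- Divergence theorem for a flow which does not cross the boundary. -/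
theorem sum_dvg (S : Finset Pt) (h : Ed → ℤ)
    (h0 : ∀ e, ((hdv e ∈ S ∧ tlv e ∉ S) ∨ (hdv e ∉ S ∧ tlv e ∈ S)) → h e = 0) :
    ∑ v ∈ S, dvg h v = 0 := by
  classical
  have z1 : ∀ v : Pt, ((v ∈ S ∧ ((v.1 + 1, v.2) : Pt) ∉ S) ∨ (v ∉ S ∧ ((v.1 + 1, v.2) : Pt) ∈ S)) →
      h (Sum.inl v) = 0 := by
    intro v hv
    apply h0
    rcases sq_inl v with k | k <;> rw [k.1, k.2.1] <;> tauto
  have z2 : ∀ v : Pt, ((v ∈ S ∧ ((v.1, v.2 + 1) : Pt) ∉ S) ∨ (v ∉ S ∧ ((v.1, v.2 + 1) : Pt) ∈ S)) →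
      h (Sum.inr v) = 0 := by
    intro v hv
    apply h0
    rcases sq_inr v with k | k <;> rw [k.1, k.2.1] <;> tauto
  have s1 : ∑ v ∈ S, h (Sum.inl v) = ∑ v ∈ S, h (Sum.inl (v.1 - 1, v.2)) := by
    have e1 : ∑ v ∈ S, h (Sum.inl v) = ∑ v ∈ S.filter (fun v => ((v.1 + 1, v.2) : Pt) ∈ S),
        h (Sum.inl v) := by
      rw [Finset.sum_filter]
      refine Finset.sum_congr rfl fun v hv => ?_
      split_ifs with h5
      · rfl
      · exact z1 v (Or.inl ⟨hv, h5⟩)
    have e2 : ∑ v ∈ S, h (Sum.inl (v.1 - 1, v.2)) =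
        ∑ v ∈ S.filter (fun v => ((v.1 - 1, v.2) : Pt) ∈ S), h (Sum.inl (v.1 - 1, v.2)) := by
      rw [Finset.sum_filter]
      refine Finset.sum_congr rfl fun v hv => ?_
      split_ifs with h5
      · rfl
      · exact z1 _ (Or.inr ⟨h5, by simpa using hv⟩)
    rw [e1, e2]
    refine Finset.sum_bij (fun v _ => ((v.1 + 1, v.2) : Pt)) ?_ ?_ ?_ ?_
    · intro v hv
      rw [Finset.mem_filter] at hv ⊢
      exact ⟨hv.2, by simpa using hv.1⟩
    · intro v _ w _ hvw
      simpa [Prod.ext_iff] using hvw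
    · intro v hv
      rw [Finset.mem_filter] at hv
      exact ⟨(v.1 - 1, v.2), by rw [Finset.mem_filter]; exact ⟨hv.2, by simpa using hv.1⟩, by simp⟩
    · intro v _
      simp
  have s2 : ∑ v ∈ S, h (Sum.inr v) = ∑ v ∈ S, h (Sum.inr (v.1, v.2 - 1)) := by
    have e1 : ∑ v ∈ S, h (Sum.inr v) = ∑ v ∈ S.filter (fun v => ((v.1, v.2 + 1) : Pt) ∈ S),
        h (Sum.inr v) := by
      rw [Finset.sum_filter]
      refine Finset.sum_congr rfl fun v hv => ?_
      split_ifs with h5
      · rfl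
      · exact z2 v (Or.inl ⟨hv, h5⟩)
    have e2 : ∑ v ∈ S, h (Sum.inr (v.1, v.2 - 1)) =
        ∑ v ∈ S.filter (fun v => ((v.1, v.2 - 1) : Pt) ∈ S), h (Sum.inr (v.1, v.2 - 1)) := by
      rw [Finset.sum_filter]
      refine Finset.sum_congr rfl fun v hv => ?_
      split_ifs with h5
      · rfl
      · exact z2 _ (Or.inr ⟨h5, by simpa using hv⟩)
    rw [e1, e2]
    refine Finset.sum_bij (fun v _ => ((v.1, v.2 + 1) : Pt)) ?_ ?_ ?_ ?_
    · intro v hv
      rw [Finset.mem_filter] at hv ⊢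
      exact ⟨hv.2, by simpa using hv.1⟩
    · intro v _ w _ hvw
      simpa [Prod.ext_iff] using hvw
    · intro v hv
      rw [Finset.mem_filter] at hv
      exact ⟨(v.1, v.2 - 1), by rw [Finset.mem_filter]; exact ⟨hv.2, by simpa using hv.1⟩, by simp⟩
    · intro v _
      simp
  have : ∑ v ∈ S, dvg h v = (∑ v ∈ S, h (Sum.inl v) - ∑ v ∈ S, h (Sum.inl (v.1 - 1, v.2))) +
      (∑ v ∈ S, h (Sum.inr v) - ∑ v ∈ S, h (Sum.inr (v.1, v.2 - 1))) := by
    rw [← Finset.sum_sub_distrib, ← Finset.sum_sub_distrib, ← Finset.sum_add_distrib]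
    refine Finset.sum_congr rfl fun v _ => ?_
    simp only [dvg]
    ring
  rw [this, s1, s2]
  ring

/-- Gradients have no divergence. -/
theorem dvg_grad (u' : Pt → ℤ) (v : Pt) :
    dvg (fun e => sg e * (u' (ls e) - u' (rs e))) v = 0 := by
  obtain ⟨x, y⟩ := v
  simp only [dvg]
  have a1 : sg (Sum.inl (x, y)) * (u' (ls (Sum.inl (x, y))) - u' (rs (Sum.inl (x, y)))) =
      u' (x + 1, y + 1) - u' (x + 1, y) := by
    rcases sq_inl (x, y) with h | h <;> rw [h.2.2.1, h.2.2.2.1, h.2.2.2.2] <;> ring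
  have a2 : sg (Sum.inr (x, y)) * (u' (ls (Sum.inr (x, y))) - u' (rs (Sum.inr (x, y)))) =
      u' (x, y + 1) - u' (x + 1, y + 1) := by
    rcases sq_inr (x, y) with h | h <;> rw [h.2.2.1, h.2.2.2.1, h.2.2.2.2] <;> ring
  have a3 : sg (Sum.inl (x - 1, y)) * (u' (ls (Sum.inl (x - 1, y))) -
      u' (rs (Sum.inl (x - 1, y)))) = u' (x, y + 1) - u' (x, y) := by
    rcases sq_inl (x - 1, y) with h | h <;> rw [h.2.2.1, h.2.2.2.1, h.2.2.2.2] <;> dsimp only <;>
      rw [show x - 1 + 1 = x by ring] <;> ring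
  have a4 : sg (Sum.inr (x, y - 1)) * (u' (ls (Sum.inr (x, y - 1))) -
      u' (rs (Sum.inr (x, y - 1)))) = u' (x, y) - u' (x + 1, y) := by
    rcases sq_inr (x, y - 1) with h | h <;> rw [h.2.2.1, h.2.2.2.1, h.2.2.2.2] <;> dsimp only <;>
      rw [show y - 1 + 1 = y by ring] <;> ring
  rw [a1, a2, a3, a4]
  ring

/-- **No flow through a boundary on which a function has the jumps of the flow.** -/
theorem sum_flow (S : Finset Pt) (H : Ed → ℤ) (u' : Pt → ℤ)
    (h0 : ∀ e, ((hdv e ∈ S ∧ tlv e ∉ S) ∨ (hdv e ∉ S ∧ tlv e ∈ S)) →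
      u' (ls e) = u' (rs e) + H e) : ∑ v ∈ S, dvg (fun e => sg e * H e) v = 0 := by
  have h1 := sum_dvg S (fun e => sg e * H e - sg e * (u' (ls e) - u' (rs e))) (by
    intro e he
    have := h0 e he
    rw [this]
    ring)
  have h2 : ∀ v, dvg (fun e => sg e * H e - sg e * (u' (ls e) - u' (rs e))) v =
      dvg (fun e => sg e * H e) v - dvg (fun e => sg e * (u' (ls e) - u' (rs e))) v := by
    intro v
    simp only [dvg]
    ring
  simp only [h2, dvg_grad, sub_zero] at h1
  exact h1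

/-- The flow of a chain of squares. -/
theorem chain_fl {Qs : Set Pt} {a b : Pt} (ha : a ∈ Qs)
    (h : ReflTransGen (fun a b => Adj a b ∧ b ∈ Qs) a b) : b ∈ Qs ∧ ∃ K : Ed → ℤ,
    (∀ e, K e ≠ 0 → hdv e ∈ Qs ∧ tlv e ∈ Qs) ∧
    ∀ v, dvg (fun e => sg e * K e) v = (if v = a then 1 else 0) - (if v = b then 1 else 0) := by
  induction h with
  | refl => exact ⟨ha, fun _ => 0, fun _ h => absurd rfl h, fun v => by simp [dvg]⟩
  | @tail b c _ hbc ih =>
    obtain ⟨hb, K, h1, h2⟩ := ih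
    obtain ⟨E, h3, h4⟩ := edge_flow hbc.1
    refine ⟨hbc.2, fun e => K e + sg e * E e, ?_, ?_⟩
    · intro e he
      by_cases hK : K e = 0
      · have hE : E e ≠ 0 := by
          intro hE
          apply he
          show K e + sg e * E e = 0
          rw [hK, hE]; ring
        rcases h3 e hE with ⟨h5, h6⟩ | ⟨h5, h6⟩ <;> rw [h5, h6]
        · exact ⟨hb, hbc.2⟩
        · exact ⟨hbc.2, hb⟩
      · exact h1 e hK
    · intro v
      have e0 : (fun e => sg e * (K e + sg e * E e)) = fun e => sg e * K e + E e := by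
        funext e
        rw [mul_add, ← mul_assoc, sg_sq, one_mul]
      rw [e0, dvg_add, h2, h4]
      ring

end Vale.Agent.P167.H476.Q
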