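import Vale.Agent.P167.H531.Q.Nd
import Vale.Agent.P167.H476.Q.Two
import Vale.Agent.P167.H174.CT.Br3

/-!
# P167, general `q`, continuity: a two-coloured gap at the boundary of the domain

`exists_sepd`: an even and an odd corner of the boundary of a box are separated by a strand which has
the even one on its left side and the odd one on its right side. `gap2`: a bank of the path and a
boundary site of the other colour which are joined off the path give the event `T2`.
-/

set_option autoImplicit false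
set_option linter.unusedVariables false
set_option linter.unusedSectionVars false

namespace Vale.Agent.P167.H476.K

open Finset Relation
open Vale.Agent.P145.FB (PStep)
open Vale.Agent.P167.H166
open Vale.Agent.P167.FKA (Cor)
open Vale.Agent.P167.H161 (PotX exists_PotX)
open Vale.Agent.P167.QC (par sd sd_par sd_cor ent_exit arc_ent)
open Vale.Agent.P167.QC.Mid (Str Bdy bc be be_cases be_surj tlv_it)
open Vale.Agent.P167.H531.Q (Tch Gm Sm BC Bde str_of str_bde str_exit pot_arc pot_side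
  pot_path bq_mono' be_bde sd_tt sd_ff)
open Vale.Agent.P167.H531.K (Nod Jn Jn.pot)
open Vale.Agent.P167.H174.CT (xt_eq pot_of near_box near_mono)
open Vale.Agent.P167.H476.Q (M2 T2 E0 mem_E0 bk pr Near xt Pot)

variable {z : ℤ × ℤ} {R r h : ℤ} {ω : Cfg}

/-- The potential of a strand has two values on the boundary of the box. -/
theorem two_bc {f : ℤ × ℤ → ℤ} {m m' : Ed} (h : Bdy z R f m m') {s : ℤ × ℤ} (hs : BC z R s) :
    f s = f (ls m) ∨ f s = f (rs m) := by
  obtain ⟨k, k0, k1, rfl⟩ := hs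
  obtain ⟨p, p0, p1, p2⟩ := be_surj (z := z) (R := R) (Or.inl h.he)
  obtain ⟨p', q0, q1, q2⟩ := be_surj (z := z) (R := R) (Or.inr h.he')
  have f1 := h.form p0 p1 p2 q0 q1 q2 (k := k) k0 k1
  have f2 := h.form p0 p1 p2 q0 q1 q2 (k := p) p0 (by omega)
  have f3 := h.form p0 p1 p2 q0 q1 q2 (k := p + 1) (by omega) (by omega)
  have b2 := be_cases (z := z) p0 p1
  rw [p2] at b2
  replace b2 := b2.resolve_right fun h' => h'.2.1 h.he.1
  have hj := h.j
  rw [b2.2.2.1, b2.2.2.2, f2, f3] at hj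
  rw [b2.2.2.1, b2.2.2.2, f1, f2, f3]
  split_ifs at * <;> omega

/-- **An even and an odd corner of the boundary are separated by a strand with the right
orientation.** -/
theorem exists_sepd {P O : ℤ × ℤ} (hP : BC z R P) (hO : BC z R O) (eP : (P.1 + P.2) % 2 = 0)
    (eO : (O.1 + O.2) % 2 = 1) : ∃ (e : Ed) (N : ℕ) (w : ℤ × ℤ → ℤ), Str z R ω e N ∧
      PotX z R (Arc (FK.Bq z R) ω e) w ∧ w P = w (ls e) ∧ w O = w (rs e) := by
  classical
  have hfin : {e : Ed | tlv e ∉ FK.Bq z R ∧ hdv e ∈ FK.Bq z R}.Finite :=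
    (touch_finite (FK.Bq z R)).subset fun e he => Or.inl he.2
  set E := hfin.toFinset with hE
  have hpot : ∀ e : Ed, ∃ w : ℤ × ℤ → ℤ, PotX z R (Arc (FK.Bq z R) ω e) w := fun e =>
    exists_PotX (Arc.inv (FK.Bq z R) ω e)
  choose W hW using hpot
  set T : ℤ × ℤ → ℤ := fun s => ∑ e ∈ E, W e s with hT
  -- the jump at the boundary
  have hjump : ∀ a, Bde z R a → T (ls a) = T (rs a) + 1 := by
    intro a ha
    obtain ⟨e0, N, hs, ha0⟩ := str_of (ω := ω) ha.tch ha.exit
    have he0 : e0 ∈ E := by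
      rw [hE, Set.Finite.mem_toFinset]
      exact ⟨hs.t, hs.b 0 hs.pos⟩
    have h1 : ∀ e ∈ E, W e (ls a) = W e (rs a) + if e = e0 then 1 else 0 := by
      intro e he
      rw [hE, Set.Finite.mem_toFinset] at he
      by_cases h2 : e = e0
      · subst h2
        rw [if_pos rfl]
        exact (hW e a ha.tch).1 ha0
      · rw [if_neg h2, add_zero]
        refine (hW e a ha.tch).2 fun h3 => h2 ?_
        exact arc_ent hs.t he.1 (Arc.trans ha0 (Arc.symm h3))
    simp only [hT]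
    rw [Finset.sum_congr rfl h1, Finset.sum_add_distrib, Finset.sum_ite_eq' E e0 fun _ => (1 : ℤ),
      if_pos he0]
  -- along the boundary
  have hlin : ∀ k : ℤ, 0 ≤ k → k ≤ 8 * R →
      T (bc z R k) + ((bc z R k).1 + (bc z R k).2) % 2 =
      T (bc z R 0) + ((bc z R 0).1 + (bc z R 0).2) % 2 := by
    intro k h0
    induction k, h0 using Int.leInduction with
    | base => intro _; rfl
    | succ k hk ih =>
      intro h1
      have h2 := ih (by omega)
      have h3 := hjump _ (be_bde (z := z) hk (show k < 8 * R by omega))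
      have p1 := sd_par true (be z R k)
      have p2 := sd_par false (be z R k)
      simp only [sd, par, if_true, Bool.false_eq_true, if_false] at p1 p2
      rcases be_cases (z := z) hk (show k < 8 * R by omega) with ⟨-, -, h4, h5⟩ | ⟨-, -, h4, h5⟩ <;>
        rw [h4, h5] at h3 <;> rw [h4] at p1 <;> rw [h5] at p2 <;> omega
  have h3 : T O < T P := by
    obtain ⟨k, k0, k1, rfl⟩ := hP
    obtain ⟨l, l0, l1, rfl⟩ := hO
    have h1 := hlin k k0 k1
    have h2 := hlin l l0 l1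
    omega
  obtain ⟨e, he, hlt⟩ : ∃ e ∈ E, W e O < W e P := by
    by_contra hcon
    push Not at hcon
    exact absurd (Finset.sum_le_sum hcon) (not_le.2 h3)
  rw [hE, Set.Finite.mem_toFinset] at he
  obtain ⟨e0, N, hs, ha0⟩ := str_of (ω := ω) (z := z) (R := R) (e := e) (Or.inl he.2)
    (ent_exit he.1)
  have h4 : e0 = e := arc_ent he.1 hs.t (Arc.symm ha0)
  rw [h4] at hs
  have hb := hs.bdy (hW e)
  have hj := hb.j
  refine ⟨e, N, W e, hs, hW e, ?_, ?_⟩
  · rcases two_bc hb hP with h5 | h5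
    · exact h5
    · rcases two_bc hb hO with h6 | h6 <;> omega
  · rcases two_bc hb hO with h5 | h5
    · rcases two_bc hb hP with h6 | h6 <;> omega
    · exact h5

/-- Corners of the two colours on the boundary are separated by a strand whose banks face them. -/
theorem exists_sepd' {c : Bool} {P O : ℤ × ℤ} (hP : BC z R P) (hO : BC z R O)
    (eP : (P.1 + P.2) % 2 = par c) (eO : (O.1 + O.2) % 2 = par (!c)) :
    ∃ (e : Ed) (N : ℕ) (w : ℤ × ℤ → ℤ), Str z R ω e N ∧
      PotX z R (Arc (FK.Bq z R) ω e) w ∧ w P = w (sd c e) ∧ w O = w (sd (!c) e) ∧ w P ≠ w O := by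
  have hne : ∀ {e : Ed} {N : ℕ} {w : ℤ × ℤ → ℤ}, Str z R ω e N →
      PotX z R (Arc (FK.Bq z R) ω e) w → w (ls e) ≠ w (rs e) := fun h1 h2 => by
    have := (h1.bdy h2).j
    omega
  cases c
  · obtain ⟨e, N, w, h1, h2, h3, h4⟩ := exists_sepd (ω := ω) hO hP eO eP
    exact ⟨e, N, w, h1, h2, h4, h3, by rw [h3, h4]; exact (hne h1 h2).symm⟩
  · obtain ⟨e, N, w, h1, h2, h3, h4⟩ := exists_sepd (ω := ω) hP hO eP eO
    exact ⟨e, N, w, h1, h2, h3, h4, by rw [h3, h4]; exact hne h1 h2⟩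

theorem bk_sd (c : Bool) (e : Ed) : bk c e = sd c e := rfl
theorem pr_par (c : Bool) : pr c = par c := rfl

variable {N : Type*} {ν : Nod N} {Γ AL : Set Ed}

/-- **The gap at the boundary.** -/
theorem m2_of (hG : Gm z R ω Γ) (hrR : r ≤ R) {S F : Set (ℤ × ℤ)} {h : ℕ} (hS : Sm z r h S)
    {c : Bool} {d : Ed} (hd : d ∈ Γ) (td : hdv d ∈ S) {b : N}
    (hJ : Jn ν z R ω Γ AL (ν.nd c d) b) {w₀ : ℤ × ℤ} (hF : w₀ ∈ F) (hw : w₀ ∈ S)
    (hc : Cor w₀ (ν.cor b)) (hb : ((ν.cor b).1 + (ν.cor b).2) % 2 = par (!c)) {t : ℤ × ℤ}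
    (hqt : ReflTransGen (PStep {v | v ∈ FK.Bq z R ∧ ω v = !c}) (ν.cor b) t) (ht : BC z R t) :
    ∃ em el, M2 (FK.Bq z R) (↑(FK.Bq z r)) F c (2 * h) em el ω := by
  have hB : ∀ v ∈ S, v ∈ FK.Bq z R := fun v hv => bq_mono' hrR (hS.b v hv)
  have hTd : Tch z R d := Or.inl (hB _ td)
  obtain ⟨e1, N1, s1, a1⟩ := hG.str hd hTd
  have ht2 : (t.1 + t.2) % 2 = par (!c) := by
    obtain ⟨w0, hw0⟩ := exists_PotX (x := z) (R := R) (Arc.inv (FK.Bq z R) ω e1)
    exact (pot_path hw0 (Arc.inv _ _ _) hb hqt).2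
  obtain ⟨em, Nm, w, sm, hw1, w2, w3, w4⟩ := exists_sepd' (ω := ω) (c := c) ((str_bde s1).bc c) ht
    (sd_par _ _) ht2
  have hA := Arc.inv (FK.Bq z R) ω em
  have e1' : w (sd c d) = w (sd c e1) := pot_arc hw1 hA a1 c
  have e2 := (pot_path hw1 hA hb hqt).1
  have hm : em ∉ Γ := fun h => by
    have := Jn.pot hw1 hA (fun a ha => hG.sub h ha) hJ
    rw [ν.hc] at this
    exact w4 (by rw [← e1', this, e2])
  have he1 : e1 ∈ Γ := hG.sub hd (Arc.symm a1)
  obtain ⟨i, hi, hid⟩ := s1.mem_arc.1 a1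
  have hiN : i < N1 := by
    rcases lt_or_eq_of_le hi with h1 | h1
    · exact h1
    · exact absurd (hB _ td) (by rw [← hid, h1]; exact s1.x)
  have hE : ∀ {e : Ed} {N : ℕ}, Str z R ω e N → e ∈ E0 (FK.Bq z R) := fun h =>
    mem_E0.2 ⟨h.b 0 h.pos, h.t⟩
  have hp := pot_of sm hw1
  rw [← xt_eq sm] at hp
  refine ⟨em, e1, hE sm, hE s1, ?_, w, hp, ?_, i, ?_, w₀, hF, ?_, ν.cor b, hc, hb, ?_⟩
  · rintro rfl
    exact hm he1
  · rw [bk_sd, bk_sd]
    exact w2
  · rw [xt_eq s1]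
    exact hiN
  · have h1 : H318.st e1 ω i = (nx ω)^[i] e1 := rfl
    rw [h1, hid]
    have h2 := hS.n _ td _ hw
    have h3 := hS.b _ hw
    have h4 := hS.b _ td
    simp only [nm, Prod.fst_sub, Prod.snd_sub, max_le_iff, abs_le] at h2
    exact near_mono (near_box h3 _ _ h4 rfl) (by omega)
  · rw [bk_sd, e2, ← w2]
    exact w4.symm

end Vale.Agent.P167.H476.K
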