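import Vale.Agent.P167.H476.Q.Mid
import Vale.Agent.P167.H192.Q.Exp
import Vale.Agent.P167.H632.EscP

/-!
# P167, general `q`, continuity: the middle strand lemma (law part)

The strand `ec` of `B` is explored completely, the strand `ea` until its first visit of the squares
which are joined to the strand `ec` by at most `h` steps in `B'`. A fresh crossing around the tip is
unlikely, relatively to the event that the tip exists.
-/

set_option autoImplicit false
set_option linter.unusedVariables false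
set_option linter.unusedSectionVars false

namespace Vale.Agent.P167.H476.Q

open Finset Vale.Agent.P167 Vale.Agent.P167.FK Vale.Agent.P167.FKA Relation
open Vale.Agent.P145.FB (PStep PConn)
open Vale.Agent.P167.H871 (Pt)
open Vale.Agent.P167.H318 (st Adj hit)
open Vale.Agent.P167.H558 (StopSet Past)
open Vale.Agent.P167.H259 (f_markov f_fkg f_comp f_comp2)
open Vale.Agent.P167.QN (Ann mem_Ann FreshP FreshD fresh_both)

/-- The squares of `B'` which are joined to `T` by at most `k` steps in `B'`. -/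
def Nbr (B' T : Set Pt) : ℕ → Set Pt
  | 0 => T ∩ B'
  | k + 1 => Nbr B' T k ∪ {v | v ∈ B' ∧ ∃ w ∈ Nbr B' T k, Adj v w}

theorem Nbr_sub {B' T : Set Pt} {k : ℕ} : Nbr B' T k ⊆ B' := by
  induction k with
  | zero => exact fun v hv => hv.2
  | succ k ih =>
    rintro v (hv | hv)
    · exact ih hv
    · exact hv.1

theorem Nbr_ne {B' T : Set Pt} {k : ℕ} {v : Pt} (h : v ∈ Nbr B' T k) : ∃ w ∈ T, w ∈ B' := by
  induction k generalizing v with
  | zero => exact ⟨v, h.1, h.2⟩
  | succ k ih =>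
    rcases h with h | ⟨-, w, hw, -⟩
    · exact ih h
    · exact ih hw

theorem rtg_mn {α : Type*} {r r' : α → α → Prop} (h : ∀ a b, r a b → r' a b) {a b : α}
    (hab : ReflTransGen r a b) : ReflTransGen r' a b := by
  induction hab with
  | refl => exact ReflTransGen.refl
  | tail _ h2 ih => exact ih.tail (h _ _ h2)

theorem Nbr_chain {B' T : Set Pt} {k : ℕ} {v : Pt} (h : v ∈ Nbr B' T k) : ∃ w ∈ T,
    ReflTransGen (fun a b => Adj a b ∧ b ∈ {b | b ∈ Nbr B' T k ∧ nm (b - v) ≤ k}) v w := by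
  induction k generalizing v with
  | zero => exact ⟨v, h.1, ReflTransGen.refl⟩
  | succ k ih =>
    rcases h with h | ⟨-, w', hw', ha⟩
    · obtain ⟨w, hw, hch⟩ := ih h
      refine ⟨w, hw, rtg_mn (fun a b hab => ⟨hab.1, Or.inl hab.2.1, ?_⟩) hch⟩
      have := hab.2.2
      push_cast
      omega
    · obtain ⟨w, hw, hch⟩ := ih hw'
      have h1 : nm (w' - v) ≤ 1 := by
        simp only [Adj] at ha
        simp only [nm, Prod.fst_sub, Prod.snd_sub, max_le_iff, abs_le]
        omega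
      refine ⟨w, hw, ReflTransGen.head ⟨ha, Or.inl hw', ?_⟩ (rtg_mn (fun a b hab =>
        ⟨hab.1, Or.inl hab.2.1, ?_⟩) hch)⟩
      · push_cast
        omega
      · have h2 := hab.2.2
        have h3 : nm (b - v) ≤ nm (b - w') + nm (w' - v) := by
          have k1 := H632.nm_le.1 (le_refl (nm (b - w')))
          have k2 := H632.nm_le.1 (le_refl (nm (w' - v)))
          rw [H632.nm_le]
          simp only [Prod.fst_sub, Prod.snd_sub] at *
          omega
        push_cast
        omega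

variable {B : Finset Pt} {ω ω' : Cfg} {e : Ed} {S : Set Pt}

/-- The squares which the strand reads before it hits `S` or leaves `B`. -/
noncomputable def Tr (B : Finset Pt) (e : Ed) (S : Set Pt) (ω : Cfg) : Finset Pt :=
  (Finset.range (hit B e S ω)).image fun i => hdv (st e ω i)

theorem mem_Tr {v : Pt} : v ∈ Tr B e S ω ↔ ∃ i < hit B e S ω, hdv (st e ω i) = v := by
  unfold Tr
  rw [Finset.mem_image]
  simp only [Finset.mem_range]

theorem lt_hit {i : ℕ} (h : i < hit B e S ω) : hdv (st e ω i) ∉ S ∧ hdv (st e ω i) ∈ B :=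
  H632.lt_hit h

theorem hit_spec (h0 : tlv e ∉ B) : hdv (st e ω (hit B e S ω)) ∈ S ∨ hdv (st e ω (hit B e S ω)) ∉ B :=
  H632.hit_spec h0

theorem Tr_sub : Tr B e S ω ⊆ B := by
  intro v hv
  obtain ⟨i, hi, rfl⟩ := mem_Tr.1 hv
  exact (lt_hit hi).2

theorem st_congr (h : ∀ v ∈ Tr B e S ω, ω' v = ω v) : ∀ i ≤ hit B e S ω, st e ω' i = st e ω i := by
  intro i
  induction i with
  | zero => exact fun _ => rfl
  | succ i ih =>
    intro hi
    rw [st_succ, st_succ, ih (by omega)]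
    exact H192.nx_congr (h _ (mem_Tr.2 ⟨i, by omega, rfl⟩))

theorem hit_congr (h0 : tlv e ∉ B) (h : ∀ v ∈ Tr B e S ω, ω' v = ω v) :
    hit B e S ω' = hit B e S ω := by
  have h1 := st_congr h
  have h2 : hit B e S ω' ≤ hit B e S ω := by
    refine Nat.sInf_le ?_
    show hdv (st e ω' _) ∈ S ∨ hdv (st e ω' _) ∉ B
    rw [h1 _ le_rfl]
    exact hit_spec h0
  refine le_antisymm h2 ?_
  by_contra hlt
  push Not at hlt
  have h3 := lt_hit (S := S) hlt
  have h4 := hit_spec (ω := ω') (S := S) h0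
  rw [h1 _ h2] at h4
  tauto

theorem Tr_congr (h0 : tlv e ∉ B) (h : ∀ v ∈ Tr B e S ω, ω' v = ω v) :
    Tr B e S ω' = Tr B e S ω := by
  ext v
  rw [mem_Tr, mem_Tr, hit_congr h0 h]
  refine exists_congr fun i => and_congr_right fun hi => ?_
  rw [st_congr h i hi.le]

/-! ### The exploration -/

variable {B' : Set Pt} {h : ℕ} {ec ea : Ed} {D : Finset Pt} {η : Cfg}

/-- The squares which are joined to the strand `ec`. -/
noncomputable def Tg (B : Finset Pt) (B' : Set Pt) (h : ℕ) (ec : Ed) (ω : Cfg) : Set Pt :=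
  Nbr B' (↑(Tr B ec ∅ ω)) h

/-- The tip of the strand `ea`. -/
noncomputable def tp (B : Finset Pt) (B' : Set Pt) (h : ℕ) (ec ea : Ed) (ω : Cfg) : Pt :=
  hdv (st ea ω (hit B ea (Tg B B' h ec ω) ω))

/-- The squares which were read. -/
noncomputable def rd (B : Finset Pt) (B' : Set Pt) (h : ℕ) (ec ea : Ed) (ω : Cfg) : Finset Pt :=
  Tr B ec ∅ ω ∪ Tr B ea (Tg B B' h ec ω) ω

/-- The strand `ea` comes close to the strand `ec`. -/
def Stp (B : Finset Pt) (B' : Set Pt) (h : ℕ) (ec ea : Ed) (ω : Cfg) : Prop :=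
  tlv ec ∉ B ∧ tlv ea ∉ B ∧ tp B B' h ec ea ω ∈ Tg B B' h ec ω

/-- A fresh crossing around the tip. -/
def Mev (B : Finset Pt) (B' : Set Pt) (h : ℕ) (r R : ℤ) (D : Finset Pt) (ec ea : Ed) (ω : Cfg) :
    Prop :=
  Stp B B' h ec ea ω ∧ (FreshP (tp B B' h ec ea ω) r R (D \ rd B B' h ec ea ω) ω ∨
    FreshD (tp B B' h ec ea ω) r R (D \ rd B B' h ec ea ω) ω)

/-- The configuration with the frozen squares. -/
noncomputable def hat (D : Finset Pt) (η ω : Cfg) : Cfg := fun v => if v ∈ D then ω v else η v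

theorem hat_cf (S' : Finset Pt) : hat D η (cf D η S') = cf D η S' := by
  funext v
  unfold hat
  split_ifs with h1
  · rfl
  · exact (cf_out h1).symm

theorem rd_congr (h1 : tlv ec ∉ B) (h2 : tlv ea ∉ B) (hh : ∀ v ∈ rd B B' h ec ea ω, ω' v = ω v) :
    rd B B' h ec ea ω' = rd B B' h ec ea ω ∧ tp B B' h ec ea ω' = tp B B' h ec ea ω ∧
      Tg B B' h ec ω' = Tg B B' h ec ω := by
  have k1 := Tr_congr (S := ∅) h1 fun v hv => hh v (Finset.mem_union_left _ hv)
  have k2 : Tg B B' h ec ω' = Tg B B' h ec ω := by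
    unfold Tg
    rw [k1]
  have k3 := fun v hv => hh v (Finset.mem_union_right _ hv)
  have k4 := Tr_congr h2 k3
  have k5 := hit_congr h2 k3
  have k6 := st_congr k3
  refine ⟨?_, ?_, k2⟩
  · unfold rd
    rw [k1, k2, k4]
  · unfold tp
    rw [k2, k5, k6 _ le_rfl]

/-- **The law part of the middle strand lemma**, for one pair of strands. -/
theorem mev_le {Q α C : ℝ} (hQ : 1 ≤ Q) (hA : ArmDec Q α C) {r R : ℤ} (hr : 1 ≤ r) (hrR : r ≤ R)
    (hη : Good η) : Pr Q D η {ω | Mev B B' h r R D ec ea ω} ≤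
      2 * Q ^ 2 * C * ((r : ℝ) / R) ^ α * Pr Q D η {ω | Stp B B' h ec ea ω} := by
  classical
  have hQ0 : 0 < Q := by linarith
  by_cases h1 : tlv ec ∉ B
  swap
  · unfold Pr
    rw [← Ex_mul_left]
    refine Ex_mono hQ0 fun S' _ => ?_
    rw [Set.indicator_of_notMem (show cf D η S' ∉ {ω | Mev B B' h r R D ec ea ω} from
      fun hm => h1 hm.1.1), Set.indicator_of_notMem (show cf D η S' ∉ {ω | Stp B B' h ec ea ω} from
      fun hm => h1 hm.1), mul_zero]
  by_cases h2 : tlv ea ∉ B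
  swap
  · unfold Pr
    rw [← Ex_mul_left]
    refine Ex_mono hQ0 fun S' _ => ?_
    rw [Set.indicator_of_notMem (show cf D η S' ∉ {ω | Mev B B' h r R D ec ea ω} from
      fun hm => h2 hm.1.2.1), Set.indicator_of_notMem (show cf D η S' ∉ {ω | Stp B B' h ec ea ω} from
      fun hm => h2 hm.2.1), mul_zero]
  set K : Cfg → Finset Pt := fun ω => rd B B' h ec ea (hat D η ω) ∩ D with hK
  have hhat : ∀ ω ω' : Cfg, (∀ v ∈ K ω, ω' v = ω v) →
      ∀ v ∈ rd B B' h ec ea (hat D η ω), hat D η ω' v = hat D η ω v := by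
    intro ω ω' hh v hv
    unfold hat
    split_ifs with h3
    · exact hh v (Finset.mem_inter.2 ⟨hv, h3⟩)
    · rfl
  have hst : StopSet K := by
    intro ω ω' hh
    simp only [hK]
    rw [(rd_congr h1 h2 (hhat ω ω' hh)).1]
  set G : Cfg → ℝ := fun ω => {ω | Stp B B' h ec ea ω}.indicator 1 (hat D η ω) with hG
  have hGp : Past K G := by
    intro ω ω' hh
    obtain ⟨-, k2, k3⟩ := rd_congr h1 h2 (hhat ω ω' hh)
    have : Stp B B' h ec ea (hat D η ω') ↔ Stp B B' h ec ea (hat D η ω) := by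
      unfold Stp
      rw [k2, k3]
    show ({ω | Stp B B' h ec ea ω}.indicator 1 (hat D η ω') : ℝ) =
      {ω | Stp B B' h ec ea ω}.indicator 1 (hat D η ω)
    simp only [Set.indicator_apply, Set.mem_ofPred_eq, this, Pi.one_apply]
  set F : Cfg → ℝ := fun ω => {ω | Mev B B' h r R D ec ea ω}.indicator 1 ω with hF
  have hG0 : ∀ ω, 0 ≤ G ω := fun ω => ind_nonneg _ _
  have e1 : Pr Q D η {ω | Mev B B' h r R D ec ea ω} = Ex Q D η (fun ω => G ω * F ω) := by
    unfold Pr
    refine Ex_congr fun S' _ => ?_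
    simp only [hG, hF, hat_cf]
    by_cases h3 : Stp B B' h ec ea (cf D η S')
    · rw [Set.indicator_of_mem (show cf D η S' ∈ {ω | Stp B B' h ec ea ω} from h3), Pi.one_apply,
        one_mul]
    · rw [Set.indicator_of_notMem (show cf D η S' ∉ {ω | Stp B B' h ec ea ω} from h3), zero_mul,
        Set.indicator_of_notMem (show cf D η S' ∉ {ω | Mev B B' h r R D ec ea ω} from
          fun hm => h3 hm.1)]
  have e2 : Pr Q D η {ω | Stp B B' h ec ea ω} = Ex Q D η G := by
    unfold Pr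
    refine Ex_congr fun S' _ => ?_
    simp only [hG, hat_cf]
  rw [e1, e2, H192.Q.stop_markov hQ0 hη hst hGp fun ω => Finset.inter_subset_right, ← Ex_mul_left]
  refine Ex_mono hQ0 fun S' _ => ?_
  set ω₀ := cf D η S' with hω₀
  rw [mul_comm _ (G ω₀)]
  refine mul_le_mul_of_nonneg_left ?_ (hG0 _)
  have hg₀ : Good ω₀ := f_good.1 _ _ _ hη
  refine le_trans ?_ (fresh_both hQ hA (x := tp B B' h ec ea ω₀) hr hrR (D \ K ω₀) hg₀)
  unfold Pr
  refine Ex_mono hQ0 fun T hT => ?_
  set ω := cf (D \ K ω₀) ω₀ T with hω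
  have h6 : ∀ v ∈ K ω₀, ω v = ω₀ v := fun v hv => cf_out fun h3 => (Finset.mem_sdiff.1 h3).2 hv
  have h7 : ∀ v, v ∉ D → ω v = η v := by
    intro v hv
    rw [hω, cf_out fun h3 => hv (Finset.mem_sdiff.1 h3).1, hω₀, cf_out hv]
  have h8 : hat D η ω = ω := by
    funext v
    unfold hat
    split_ifs with h3
    · rfl
    · exact (h7 v h3).symm
  have h9 : hat D η ω₀ = ω₀ := hat_cf _
  obtain ⟨k1, k2, k3⟩ := rd_congr h1 h2 (hhat ω₀ ω h6)
  rw [h8, h9] at k1 k2 k3
  have hKD : D \ K ω₀ = D \ rd B B' h ec ea ω₀ := by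
    simp only [hK]
    rw [h9]
    ext v
    rw [Finset.mem_sdiff, Finset.mem_sdiff, Finset.mem_inter]
    tauto
  show ({ω | Mev B B' h r R D ec ea ω}.indicator 1 ω : ℝ) ≤ _
  by_cases h3 : Mev B B' h r R D ec ea ω
  · have h4 := h3.2
    rw [k1, k2, ← hKD] at h4
    rw [Set.indicator_of_mem (show ω ∈ {ω | Mev B B' h r R D ec ea ω} from h3),
      Set.indicator_of_mem (show ω ∈ {ω | FreshP (tp B B' h ec ea ω₀) r R (D \ K ω₀) ω ∨
        FreshD (tp B B' h ec ea ω₀) r R (D \ K ω₀) ω} from h4)]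
  · rw [Set.indicator_of_notMem (show ω ∉ {ω | Mev B B' h r R D ec ea ω} from h3)]
    exact ind_nonneg _ _

end Vale.Agent.P167.H476.Q
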