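import Vale.Agent.P167.H531.Q.Lk3

/-!
# P167, general `q`, continuity: the link near the tip

`Gt` is the set of the explored edges when the tip `t` is in the box. The edges of the complete
strands form a set `Gm`. (K3) `tip`: a corner which is near the tip and not joined to the tip in the
box off the path, and an arm of the other colour: three strands.
-/

set_option autoImplicit false
set_option linter.unusedVariables false
set_option linter.unusedSectionVars false

namespace Vale.Agent.P167.H476.Q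

open Finset Relation
open Vale.Agent.P145.FB (PStep)
open Vale.Agent.P167.H166
open Vale.Agent.P167.FKA (Cor)
open Vale.Agent.P167.H161 (PotX exists_PotX)
open Vale.Agent.P167.QC (par sd sd_par sd_cor ent_exit arc_ent)
open Vale.Agent.P167.QC.Mid (Str bc be be_cases be_surj tlv_it)
open Vale.Agent.P167.H531.Q

variable {z : ℤ × ℤ} {R r h : ℤ} {ω : Cfg} {Γ AL : Set Ed} {t : Ed}

/-- The explored edges when the tip `t` is in the box. -/
structure Gt (z : ℤ × ℤ) (R : ℤ) (ω : Cfg) (Γ : Set Ed) (t : Ed) : Prop where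
  inv : ∀ e, hdv e ∈ FK.Bq z R → nx ω e ≠ t → (e ∈ Γ ↔ nx ω e ∈ Γ)
  nt : t ∉ Γ
  pre : ∀ (n : ℕ) (a : Ed), 0 < n → (nx ω)^[n] a = t →
    (∀ i < n, hdv ((nx ω)^[i] a) ∈ FK.Bq z R) → a ∈ Γ
  ex : ∀ e ∈ Γ, Tch z R e → (∃ n : ℕ, hdv ((nx ω)^[n] e) ∉ FK.Bq z R) ∨ ∃ n : ℕ, (nx ω)^[n] e = t
  tx : ∃ n : ℕ, hdv ((nx ω)^[n] t) ∉ FK.Bq z R

/-- The edges of the complete strands. -/
def Gc (z : ℤ × ℤ) (R : ℤ) (ω : Cfg) (Γ : Set Ed) (t : Ed) : Set Ed :=
  Γ \ Arc (FK.Bq z R) ω t

theorem Gc_sub : Gc z R ω Γ t ⊆ Γ := fun _ h => h.1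

/-- The complete strands. -/
theorem Gt.gm (h : Gt z R ω Γ t) : Gm z R ω (Gc z R ω Γ t) where
  inv := by
    intro e he
    have h1 : e ∈ Arc (FK.Bq z R) ω t ↔ nx ω e ∈ Arc (FK.Bq z R) ω t := Arc.inv _ _ _ _ he
    by_cases h2 : nx ω e = t
    · have h3 : nx ω e ∈ Arc (FK.Bq z R) ω t := by rw [h2]; exact self_mem_Arc _ _ _
      constructor
      · intro h4; exact absurd (h1.2 h3) h4.2
      · intro h4; exact absurd h3 h4.2
    · have h3 := h.inv e (Finset.mem_coe.1 he) h2
      constructor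
      · intro h4; exact ⟨h3.1 h4.1, fun h5 => h4.2 (h1.2 h5)⟩
      · intro h4; exact ⟨h3.2 h4.1, fun h5 => h4.2 (h1.1 h5)⟩
  ex := by
    intro e he ht
    rcases h.ex e he.1 ht with h1 | ⟨n, h1⟩
    · exact h1
    · by_contra hno
      push Not at hno
      exact he.2 (Or.inr ⟨n, h1, fun i _ => hno i⟩)

/-- The banks of the last part of the path are joined to the tip. -/
theorem Gt.lam (h : Gt z R ω Γ t) {e : Ed} (he : e ∈ Γ) (ha : e ∈ Arc (FK.Bq z R) ω t) (c : Bool) :
    Jn z R ω Γ AL (sd c e) (sd c t) := by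
  have key : ∀ (n : ℕ) (a : Ed), (nx ω)^[n] a = t → (∀ i < n, hdv ((nx ω)^[i] a) ∈ FK.Bq z R) →
      Jn z R ω Γ AL (sd c a) (sd c t) := by
    intro n
    induction n with
    | zero => intro a h1 _; simp only [Function.iterate_zero, id_eq] at h1; rw [h1]
              exact ReflTransGen.refl
    | succ n ih =>
      intro a h1 h2
      have h3 : a ∈ Γ := h.pre (n + 1) a (by omega) h1 h2
      refine ReflTransGen.head (Or.inr ⟨a, h3, h2 0 (by omega), c, Or.inl ⟨rfl, rfl⟩⟩)
        (ih (nx ω a) (by rw [← Function.iterate_succ_apply]; exact h1) fun i hi => ?_)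
      have := h2 (i + 1) (by omega)
      rwa [Function.iterate_succ_apply] at this
  have key2 : ∀ (n : ℕ) (b : Ed), b ∉ Γ → (∀ i < n, hdv ((nx ω)^[i] b) ∈ FK.Bq z R) →
      (∀ i < n, (nx ω)^[i + 1] b ≠ t) → (nx ω)^[n] b ∉ Γ := by
    intro n
    induction n with
    | zero => intro b hb _ _; exact hb
    | succ n ih =>
      intro b hb h1 h2 h3
      have h4 := ih b hb (fun i hi => h1 i (by omega)) fun i hi => h2 i (by omega)
      apply h4
      rw [Function.iterate_succ_apply'] at h3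
      refine (h.inv _ (h1 n (by omega)) ?_).2 h3
      have h5 := h2 n (by omega)
      rwa [Function.iterate_succ_apply'] at h5
  rcases ha with ⟨n, h1, h2⟩ | ⟨n, h1, h2⟩
  · -- an edge after the tip is not in the path, unless the arc is periodic
    by_cases h3 : ∀ i < n, (nx ω)^[i + 1] t ≠ t
    · exact absurd he (by rw [← h1]; exact key2 n t h.nt h2 h3)
    · push Not at h3
      obtain ⟨i, hi, h4⟩ := h3
      exfalso
      obtain ⟨m, hm⟩ := h.tx
      apply hm
      have hall : ∀ m, hdv ((nx ω)^[m] t) ∈ FK.Bq z R := by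
        intro m
        induction m using Nat.strong_induction_on with
        | _ m ih =>
          by_cases h5 : m ≤ i
          · exact h2 m (by omega)
          · rw [show m = (m - (i + 1)) + (i + 1) by omega, Function.iterate_add_apply, h4]
            exact ih _ (by omega)
      exact hall m
  · exact key n e h1 h2

/-- Joined to the tip off the complete strands: joined to the tip off the path. -/
theorem Gt.up (h : Gt z R ω Γ t) (hAL : t ∈ AL) (ht : Tch z R t) {c0 : Bool} {u : ℤ × ℤ}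
    (hJ : Jn z R ω (Gc z R ω Γ t) AL (sd c0 t) u) : Jn z R ω Γ AL (sd c0 t) u := by
  have hcr : ∀ c, Jn z R ω Γ AL (sd c0 t) (sd c t) := by
    intro c
    by_cases hc : c = c0
    · rw [hc]; exact ReflTransGen.refl
    · have hc' : c = !c0 := by revert hc; cases c <;> cases c0 <;> simp
      exact ReflTransGen.single (Or.inl ⟨t, hAL, h.nt, ht, c0, rfl, by rw [hc']⟩)
  induction hJ with
  | refl => exact ReflTransGen.refl
  | @tail a b _ hs ih =>
    rcases hs with ⟨e, h1, h2, h3, c, h4, h5⟩ | ⟨e, h1, h2, c, h3⟩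
    · by_cases he : e ∈ Γ
      · have he2 : e ∈ Arc (FK.Bq z R) ω t := by
          by_contra hno
          exact h2 ⟨he, hno⟩
        rw [h5]
        exact (hcr _).trans (h.lam he he2 _).symm
      · exact ih.tail (Or.inl ⟨e, h1, he, h3, c, h4, h5⟩)
    · exact ih.tail (Or.inr ⟨e, h1.1, h2, c, h3⟩)

/-- A corner joined to the last part of the path is joined to the tip. -/
theorem Gt.hit (h : Gt z R ω Γ t) (hAL : t ∈ AL) (ht : Tch z R t) {c0 c : Bool} {e : Ed}
    (he : e ∈ Γ) (ha : e ∈ Arc (FK.Bq z R) ω t) : Jn z R ω Γ AL (sd c e) (sd c0 t) := by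
  refine (h.lam he ha c).trans ?_
  by_cases hc : c = c0
  · rw [hc]; exact ReflTransGen.refl
  · have hc' : c0 = !c := by revert hc; cases c <;> cases c0 <;> simp
    exact ReflTransGen.single (Or.inl ⟨t, hAL, h.nt, ht, c, rfl, by rw [hc']⟩)

/-- Away from the tip the two relations are the same. -/
theorem Gt.down (h : Gt z R ω Γ t) (hAL : t ∈ AL) (ht : Tch z R t) {c0 : Bool} {u q : ℤ × ℤ}
    (hn : ¬ Jn z R ω Γ AL (sd c0 t) u) (hJ : Jn z R ω Γ AL u q) :
    Jn z R ω (Gc z R ω Γ t) AL u q := by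
  induction hJ with
  | refl => exact ReflTransGen.refl
  | @tail a b hab hs ih =>
    refine ih.tail ?_
    rcases hs with ⟨e, h1, h2, h3, c, h4, h5⟩ | ⟨e, h1, h2, c, h3⟩
    · exact Or.inl ⟨e, h1, fun h6 => h2 h6.1, h3, c, h4, h5⟩
    · refine Or.inr ⟨e, ⟨h1, fun h4 => ?_⟩, h2, c, h3⟩
      apply hn
      have hcb : Jn z R ω Γ AL (sd c e) u := by
        rcases h3 with ⟨h5, h6⟩ | ⟨h5, h6⟩
        · rw [← h5]; exact Jn.symm hab
        · rw [← h6]
          exact Jn.symm (ReflTransGen.tail hab (Or.inr ⟨e, h1, h2, c, Or.inr ⟨h5, h6⟩⟩))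
      exact (h.hit hAL ht h1 h4 (c0 := c0) (c := c)).symm.trans hcb

/-- **(K3) Not joined to the tip, and an arm.** `p` is a chain from a corner of the tip to a corner
`p n` which sees the side `c` of the path. -/
theorem Gt.tip (hT : Gt z R ω Γ t) (hAL : t ∈ AL) (hrR : r ≤ R) {S : Set (ℤ × ℤ)}
    (hS : Sm z r h S) (htS : hdv t ∈ S) {c c0 : Bool} {n : ℕ} {p : ℕ → ℤ × ℤ} {E : ℕ → Ed}
    (hst : ∀ i < n, US z R AL (p i) (p (i + 1)) (E i)) (hsm : ∀ i < n, hdv (E i) ∈ S)
    (hp : p 0 = sd c0 t) (hnj : ¬ Jn z R ω Γ AL (p 0) (p n))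
    (hfv : ∃ j < n, (∀ i, j < i → i < n → E i ∉ Γ) ∧ E j ∈ Γ ∧ p (j + 1) = sd c (E j))
    {q s : ℤ × ℤ} (hJ : Jn z R ω Γ AL (p n) q) (hN : ReflTransGen (NS z R S) (p n) q)
    (hq : (q.1 + q.2) % 2 = par (!c))
    (hqt : ReflTransGen (PStep {v | v ∈ FK.Bq z R ∧ ω v = !c}) q s) (hs : BC z R s) :
    M3 z R r h ω := by
  have hB : ∀ v ∈ S, v ∈ FK.Bq z R := fun v hv => bq_mono' hrR (hS.b v hv)
  have htt : Tch z R t := Or.inl (hB _ htS)
  have hG := hT.gm
  rw [hp] at hnj
  have hnj' : ¬ Jn z R ω (Gc z R ω Γ t) AL (p 0) (p n) := by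
    rw [hp]; exact fun h1 => hnj (hT.up hAL htt h1)
  -- a strand which separates
  obtain ⟨i1, hi1, a1, a3, w1, a4, a5⟩ := walk hG n p E hst hnj'
  have t1 : Tch z R (E i1) := Or.inl (hB _ (hsm _ hi1))
  -- the last edge
  obtain ⟨j, hj, g1, g2, g3⟩ := hfv
  have t2 : Tch z R (E j) := Or.inl (hB _ (hsm _ hj))
  have hJ0 : Jn z R ω Γ AL (p (j + 1)) (p n) := by
    have key : ∀ m, j + 1 ≤ m → m ≤ n → Jn z R ω Γ AL (p (j + 1)) (p m) := by
      intro m hm
      induction m, hm using Nat.le_induction with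
      | base => intro _; exact ReflTransGen.refl
      | succ m hm ih =>
        intro h1
        obtain ⟨k1, k2, c1, k3, k4⟩ := hst m (by omega)
        exact (ih (by omega)).tail (Or.inl ⟨E m, k1, g1 m (by omega) (by omega), k2, c1, k3, k4⟩)
    exact key n (by omega) le_rfl
  have hna : E j ∉ Arc (FK.Bq z R) ω t := fun h1 => by
    apply hnj
    refine (hT.hit hAL htt g2 h1 (c := c) (c0 := c0)).symm.trans ?_
    rw [← g3]
    exact hJ0
  have b1 : E j ∈ Gc z R ω Γ t := ⟨g2, hna⟩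
  have b3 : Jn z R ω (Gc z R ω Γ t) AL (p n) (p (j + 1)) := hT.down hAL htt hnj hJ0.symm
  have hJ' : Jn z R ω (Gc z R ω Γ t) AL (p n) q := hT.down hAL htt hnj hJ
  -- the new strand
  obtain ⟨em, Nm, w, sm, hw, hm, hsep⟩ := arm0 hG b1 t2 (AL := AL) (c := c)
    (by rw [← g3]; exact b3.symm.trans hJ') hq hqt hs
  obtain ⟨d, hd, hdS⟩ : ∃ d ∈ Arc (FK.Bq z R) ω em, hdv d ∈ S := by
    have hch : ReflTransGen (NS z R S) (p (j + 1)) (p n) := by
      have key : ∀ m, j + 1 ≤ m → m ≤ n → ReflTransGen (NS z R S) (p (j + 1)) (p m) := by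
        intro m hm
        induction m, hm using Nat.le_induction with
        | base => intro _; exact ReflTransGen.refl
        | succ m hm ih =>
          intro h1
          obtain ⟨-, k2, c1, k3, k4⟩ := hst m (by omega)
          exact (ih (by omega)).tail ⟨E m, k2, hsm _ (by omega), c1, k3, k4⟩
      exact key n (by omega) le_rfl
    exact cross_near hw (hch.trans hN) (by rw [g3]; exact hsep)
  obtain ⟨e, he, te, c1, hJe⟩ := cross_jn hw (hJ'.symm.trans b3) (by rw [g3]; exact hsep.symm)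
  obtain ⟨s2, N2, hs2, ha2⟩ := hG.str a1 t1
  have hArc : Arc (FK.Bq z R) ω (E i1) = Arc (FK.Bq z R) ω s2 := Arc.eq ha2
  have hsub : Arc (FK.Bq z R) ω s2 ⊆ Gc z R ω Γ t := by
    rw [← hArc]; exact fun a ha => hG.sub a1 ha
  rw [hArc] at a4
  have hd' : d ∉ Gc z R ω Γ t := arc_off hG hm hd
  have k1 : w1 (sd c1 d) = w1 (p n) := by
    have h1 : d ∈ Arc (FK.Bq z R) ω e := Arc.trans (Arc.symm he) hd
    rw [pot_arc a4 (Arc.inv _ _ _) h1 c1, ← Jn.pot a4 (Arc.inv _ _ _) hsub hJe,
      ← Jn.pot a4 (Arc.inv _ _ _) hsub hJ']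
  refine mk_M3 hS hrR htS hdS hs2 a4 (fun h1 => ?_) (fun h1 => hd' (hsub h1)) (c := c0)
    (c' := c1) ?_ hT.tx (str_exit sm hd)
  · exact hT.nt (hsub h1).1
  · rw [← hp, k1]
    exact a5

/-- The path up to time `k`. -/
def Pth (ω : Cfg) (e0 : Ed) (k : ℕ) : Set Ed := {e | ∃ i < k, (nx ω)^[i] e0 = e}

/-- The path with its tip in the box. -/
theorem gt_pth {e0 : Ed} {k : ℕ} (h0 : tlv e0 ∉ FK.Bq z R)
    (hfr : ∀ i < k, (nx ω)^[i] e0 ≠ (nx ω)^[k] e0)
    (hx : ∃ n : ℕ, hdv ((nx ω)^[n] ((nx ω)^[k] e0)) ∉ FK.Bq z R) :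
    Gt z R ω (Pth ω e0 k) ((nx ω)^[k] e0) where
  inv := by
    intro e he hne
    constructor
    · rintro ⟨i, hi, rfl⟩
      refine ⟨i + 1, ?_, Function.iterate_succ_apply' _ _ _⟩
      rcases Nat.lt_or_ge (i + 1) k with h2 | h2
      · exact h2
      · exact absurd (by rw [show k = i + 1 by omega, Function.iterate_succ_apply']) hne
    · rintro ⟨i, hi, h2⟩
      cases i with
      | zero =>
        exfalso
        simp only [Function.iterate_zero, id_eq] at h2
        rw [h2, tlv_nx] at h0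
        exact h0 he
      | succ i =>
        rw [Function.iterate_succ_apply'] at h2
        exact ⟨i, by omega, (s_nx ω).1 h2⟩
  nt := by
    rintro ⟨i, hi, h2⟩
    exact hfr i hi h2
  pre := by
    intro n a hn h2 h3
    rcases Nat.lt_or_ge k n with h4 | h4
    · -- the start would be in the box
      exfalso
      have h5 : (nx ω)^[n - k] a = e0 := by
        have h6 : (nx ω)^[k] ((nx ω)^[n - k] a) = (nx ω)^[k] e0 := by
          rw [← Function.iterate_add_apply, show k + (n - k) = n by omega]; exact h2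
        exact ((s_nx ω).1.iterate k) h6
      have h6 := h3 (n - k - 1) (by omega)
      have h7 : nx ω ((nx ω)^[n - k - 1] a) = e0 := by
        have h8 := Function.iterate_succ_apply' (nx ω) (n - k - 1) a
        rw [show (n - k - 1).succ = n - k by omega, h5] at h8
        exact h8.symm
      rw [← tlv_nx (ω := ω), h7] at h6
      exact h0 h6
    · refine ⟨k - n, by omega, ?_⟩
      have h6 : (nx ω)^[n] ((nx ω)^[k - n] e0) = (nx ω)^[n] a := by
        rw [← Function.iterate_add_apply, show n + (k - n) = k by omega]; exact h2.symm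
      exact ((s_nx ω).1.iterate n) h6
  ex := by
    rintro e ⟨i, hi, rfl⟩ _
    right
    exact ⟨k - i, by rw [← Function.iterate_add_apply, show k - i + i = k by omega]⟩
  tx := hx

/-- The path with its tip outside of the box. -/
theorem gm_pth {e0 : Ed} {k : ℕ} (h0 : tlv e0 ∉ FK.Bq z R)
    (hk : tlv ((nx ω)^[k] e0) ∉ FK.Bq z R) : Gm z R ω (Pth ω e0 k) where
  inv := by
    intro e he
    constructor
    · rintro ⟨i, hi, rfl⟩
      refine ⟨i + 1, ?_, Function.iterate_succ_apply' _ _ _⟩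
      rcases Nat.lt_or_ge (i + 1) k with h2 | h2
      · exact h2
      · exfalso
        rw [show k = i + 1 by omega, Function.iterate_succ_apply', tlv_nx] at hk
        exact hk (Finset.mem_coe.1 he)
    · rintro ⟨i, hi, h2⟩
      cases i with
      | zero =>
        exfalso
        simp only [Function.iterate_zero, id_eq] at h2
        rw [h2, tlv_nx] at h0
        exact h0 (Finset.mem_coe.1 he)
      | succ i =>
        rw [Function.iterate_succ_apply'] at h2
        exact ⟨i, by omega, (s_nx ω).1 h2⟩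
  ex := by
    rintro e ⟨i, hi, rfl⟩ _
    refine ⟨k - 1 - i, ?_⟩
    rw [← Function.iterate_add_apply, show k - 1 - i + i = k - 1 by omega]
    rw [show k = (k - 1) + 1 by omega, Function.iterate_succ_apply', tlv_nx] at hk
    exact hk

end Vale.Agent.P167.H476.Q
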